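import Mathlib

/-!
# Computable rational arithmetic (helper28, for S0170)

Mathlib's `Primcodable ℚ` is `Primcodable.ofDenumerable ℚ`, whose code of `q` is the *rank* of the
raw code `Nat.pair (encode q.num) q.den` among all valid raw codes.  We show that the two conversions

* `ratToNat3 : ℚ → ℕ × ℕ × ℕ`, `q ↦ (q.num.toNat, (-q.num).toNat, q.den)`
* `nat3ToRat : ℕ × ℕ × ℕ → ℚ`, `(a, b, d) ↦ (a - b) / d`

are computable; every rational operation then reduces to primitive recursive `ℕ`-arithmetic.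
-/

set_option autoImplicit false

namespace Crest.Agent.Helper28

open Encodable Denumerable

/-! ### gcd -/

theorem primrec_dvd : PrimrecRel (fun a b : ℕ => a ∣ b) := by
  have h : PrimrecRel (fun a b : ℕ => b % a = 0) :=
    Primrec.eq.comp₂ (Primrec.nat_mod.comp₂ (Primrec₂.right) (Primrec₂.left))
      (Primrec₂.const 0)
  exact h.of_eq fun a b => (Nat.dvd_iff_mod_eq_zero ..).symm

theorem gcd_eq_findGreatest (a b : ℕ) :
    Nat.gcd a b = Nat.findGreatest (fun k => k ∣ a ∧ k ∣ b) (a + b) := by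
  symm
  rcases Nat.eq_zero_or_pos (a + b) with h | h
  · have ha : a = 0 := by omega
    have hb : b = 0 := by omega
    subst ha hb
    simp
  · apply Nat.findGreatest_eq_iff.2
    refine ⟨?_, ?_, ?_⟩
    · rcases Nat.eq_zero_or_pos a with ha | ha
      · subst ha; simp
      · exact (Nat.gcd_le_left b ha).trans (Nat.le_add_right _ _)
    · intro _
      exact ⟨Nat.gcd_dvd_left a b, Nat.gcd_dvd_right a b⟩
    · intro n hn _ hdiv
      have := Nat.le_of_dvd (Nat.gcd_pos_iff.2 (by omega)) (Nat.dvd_gcd hdiv.1 hdiv.2)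
      omega

theorem primrec_gcd : Primrec₂ Nat.gcd := by
  have h : Primrec (fun p : ℕ × ℕ => Nat.findGreatest (fun k => k ∣ p.1 ∧ k ∣ p.2) (p.1 + p.2)) := by
    refine Primrec.nat_findGreatest (Primrec.nat_add.comp Primrec.fst Primrec.snd) ?_
    refine PrimrecPred.and ?_ ?_
    · exact primrec_dvd.comp Primrec.snd (Primrec.fst.comp Primrec.fst)
    · exact primrec_dvd.comp Primrec.snd (Primrec.snd.comp Primrec.fst)
  exact h.of_eq fun p => (gcd_eq_findGreatest p.1 p.2).symm

/-! ### Codes of integers -/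

theorem encode_int_ofNat (n : ℕ) : encode (n : ℤ) = 2 * n := by
  change Nat.bit false n = 2 * n
  simp [Nat.bit]

theorem encode_int_negSucc (n : ℕ) : encode (Int.negSucc n) = 2 * n + 1 := by
  change Nat.bit true n = 2 * n + 1
  simp [Nat.bit]

theorem natAbs_eq_encode (z : ℤ) : z.natAbs = (encode z + 1) / 2 := by
  cases z with
  | ofNat n => rw [Int.ofNat_eq_natCast, encode_int_ofNat]; simp; omega
  | negSucc n => rw [encode_int_negSucc]; simp; omega

theorem toNat_eq_encode (z : ℤ) : z.toNat = if encode z % 2 = 0 then encode z / 2 else 0 := by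
  cases z with
  | ofNat n => rw [Int.ofNat_eq_natCast, encode_int_ofNat]; simp
  | negSucc n => rw [encode_int_negSucc]; simp

theorem toNat_neg_eq_encode (z : ℤ) :
    (-z).toNat = if encode z % 2 = 0 then 0 else (encode z + 1) / 2 := by
  cases z with
  | ofNat n => rw [Int.ofNat_eq_natCast, encode_int_ofNat]; simp
  | negSucc n => rw [encode_int_negSucc]; simp [Int.neg_negSucc]; omega

/-- code of the integer `a - b` for naturals `a, b`. -/
def encSub (a b : ℕ) : ℕ := if b ≤ a then 2 * (a - b) else 2 * (b - a) - 1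

theorem encode_sub_nat (a b : ℕ) : encode ((a : ℤ) - b) = encSub a b := by
  unfold encSub
  split_ifs with h
  · have : ((a : ℤ) - b) = ((a - b : ℕ) : ℤ) := by omega
    rw [this, encode_int_ofNat]
  · have : ((a : ℤ) - b) = Int.negSucc (b - a - 1) := by
      rw [Int.negSucc_eq]; omega
    rw [this, encode_int_negSucc]; omega

theorem primrec_encSub : Primrec₂ encSub := by
  unfold encSub
  refine Primrec.ite (Primrec.nat_le.comp Primrec.snd Primrec.fst) ?_ ?_
  · exact Primrec.nat_mul.comp (Primrec.const 2) (Primrec.nat_sub.comp Primrec.fst Primrec.snd)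
  · exact Primrec.nat_sub.comp
      (Primrec.nat_mul.comp (Primrec.const 2) (Primrec.nat_sub.comp Primrec.snd Primrec.fst))
      (Primrec.const 1)

/-! ### The two encodings of `ℚ` -/

/-- The code of a rational for `Computable` (i.e. w.r.t. `Primcodable ℚ`). -/
def encQ (q : ℚ) : ℕ := @encode ℚ Primcodable.toEncodable q

/-- The raw code of a rational. -/
def rawEnc (q : ℚ) : ℕ := Nat.pair (encode q.num) q.den

/-- Validity test for raw codes. -/
def validB (m : ℕ) : Bool :=
  decide (0 < m.unpair.2 ∧ Nat.gcd ((m.unpair.1 + 1) / 2) m.unpair.2 = 1)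

theorem validB_rawEnc (q : ℚ) : validB (rawEnc q) = true := by
  unfold validB rawEnc
  rw [Nat.unpair_pair]
  simp only [decide_eq_true_eq]
  refine ⟨q.den_pos, ?_⟩
  rw [← natAbs_eq_encode]
  exact q.reduced

theorem validB_iff (m : ℕ) : validB m = true ↔ m ∈ Set.range rawEnc := by
  constructor
  · intro h
    unfold validB at h
    simp only [decide_eq_true_eq] at h
    obtain ⟨hd, hg⟩ := h
    set z : ℤ := ofNat ℤ m.unpair.1 with hz
    have hz' : encode z = m.unpair.1 := encode_ofNat _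
    have hcop : z.natAbs.Coprime m.unpair.2 := by
      rw [natAbs_eq_encode, hz']; exact hg
    refine ⟨Rat.mk' z m.unpair.2 (Nat.pos_iff_ne_zero.1 hd) hcop, ?_⟩
    unfold rawEnc
    simp only [hz']
    exact Nat.pair_unpair m
  · rintro ⟨q, rfl⟩
    exact validB_rawEnc q

theorem primrec_validB : Primrec validB := by
  unfold validB
  refine PrimrecPred.decide ?_
  refine PrimrecPred.and ?_ ?_
  · exact Primrec.nat_lt.comp (Primrec.const 0) (Primrec.snd.comp Primrec.unpair)
  · refine Primrec.eq.comp ?_ (Primrec.const 1)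
    refine primrec_gcd.comp ?_ (Primrec.snd.comp Primrec.unpair)
    exact Primrec.nat_div.comp
      (Primrec.nat_add.comp (Primrec.fst.comp Primrec.unpair) (Primrec.const 1)) (Primrec.const 2)

/-- Number of valid raw codes below `m`. -/
def cnt (m : ℕ) : ℕ := (List.range m).countP validB

theorem cnt_succ (m : ℕ) : cnt (m + 1) = cnt m + if validB m then 1 else 0 := by
  unfold cnt
  rw [List.range_succ, List.countP_append, List.countP_singleton]

theorem cnt_mono {m n : ℕ} (h : m ≤ n) : cnt m ≤ cnt n := by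
  induction h with
  | refl => exact le_rfl
  | step _ ih => rw [cnt_succ]; omega

theorem cnt_lt {m n : ℕ} (h : m < n) (hv : validB m = true) : cnt m < cnt n := by
  have h1 : cnt (m + 1) ≤ cnt n := cnt_mono h
  rw [cnt_succ, hv] at h1
  simp at h1
  omega

theorem primrec_cnt : Primrec cnt := by
  have h : Primrec (fun t : ℕ => Nat.rec (motive := fun _ => ℕ) 0
      (fun k ih => ih + if validB k then 1 else 0) t) := by
    refine Primrec.nat_rec₁ 0 ?_
    refine Primrec.nat_add.comp Primrec.snd ?_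
    exact Primrec.ite (Primrec.eq.comp (primrec_validB.comp Primrec.fst) (Primrec.const true))
      (Primrec.const 1) (Primrec.const 0)
  refine h.of_eq fun t => ?_
  induction t with
  | zero => simp [cnt]
  | succ k ih => rw [cnt_succ, ← ih]

theorem encQ_eq (q : ℚ) : encQ q = cnt (rawEnc q) := by
  have h : encQ q = (List.range (@encode ℚ Rat.instEncodable q)).countP
        (fun k => @decide (k ∈ Set.range (@encode ℚ Rat.instEncodable))
          (Encodable.decidableRangeEncode ℚ k)) := rfl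
  rw [h]
  unfold cnt
  have h2 : (fun k => @decide (k ∈ Set.range (@encode ℚ Rat.instEncodable))
          (Encodable.decidableRangeEncode ℚ k)) = validB := by
    funext k
    have hk : (k ∈ Set.range (@encode ℚ Rat.instEncodable)) ↔ validB k = true :=
      (validB_iff k).symm
    exact Bool.eq_iff_iff.2
      ((@decide_eq_true_iff _ (Encodable.decidableRangeEncode ℚ k)).trans hk)
  rw [h2]
  rfl

/-! ### `ℚ → ℕ` : the raw code is primitive recursive -/

theorem validB_pair_one (a : ℕ) : validB (Nat.pair a 1) = true := by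
  unfold validB
  rw [Nat.unpair_pair]
  simp

theorem le_cnt_pair_one (a : ℕ) : a ≤ cnt (Nat.pair a 1) := by
  induction a with
  | zero => exact Nat.zero_le _
  | succ a ih =>
    have h : Nat.pair a 1 < Nat.pair (a + 1) 1 := Nat.pair_lt_pair_left 1 (Nat.lt_succ_self a)
    have := cnt_lt h (validB_pair_one a)
    omega

theorem le_pair_of_cnt (m : ℕ) : m ≤ Nat.pair (cnt m + 1) 1 := by
  by_contra h
  rw [not_le] at h
  have h1 := cnt_lt h (validB_pair_one (cnt m + 1))
  have h2 := le_cnt_pair_one (cnt m + 1)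
  omega

theorem rawEnc_eq_findGreatest (q : ℚ) :
    rawEnc q = Nat.findGreatest (fun m => validB m = true ∧ cnt m = encQ q)
      (Nat.pair (encQ q + 1) 1) := by
  symm
  apply Nat.findGreatest_eq_iff.2
  refine ⟨?_, ?_, ?_⟩
  · rw [encQ_eq]; exact le_pair_of_cnt _
  · intro _
    exact ⟨validB_rawEnc q, (encQ_eq q).symm⟩
  · intro n hn _ hP
    have := cnt_lt hn (validB_rawEnc q)
    rw [← encQ_eq] at this
    omega

theorem primrec_rawEnc : Primrec rawEnc := by
  have henc : Primrec encQ := Primrec.encode (α := ℚ)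
  have h : Primrec (fun q : ℚ => Nat.findGreatest (fun m => validB m = true ∧ cnt m = encQ q)
      (Nat.pair (encQ q + 1) 1)) := by
    refine Primrec.nat_findGreatest
      (Primrec₂.natPair.comp (Primrec.succ.comp henc) (Primrec.const 1)) ?_
    refine PrimrecPred.and ?_ ?_
    · exact Primrec.eq.comp (primrec_validB.comp Primrec.snd) (Primrec.const true)
    · exact Primrec.eq.comp (primrec_cnt.comp Primrec.snd) (henc.comp Primrec.fst)
  exact h.of_eq fun q => (rawEnc_eq_findGreatest q).symm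

/-! ### `ℕ³ → ℚ` -/

/-- `(a, b, d) ↦ (a - b) / d`. -/
def nat3ToRat (t : ℕ × ℕ × ℕ) : ℚ := mkRat ((t.1 : ℤ) - t.2.1) t.2.2

theorem nat3ToRat_eq (t : ℕ × ℕ × ℕ) : nat3ToRat t = ((t.1 : ℚ) - t.2.1) / t.2.2 := by
  unfold nat3ToRat
  rw [Rat.mkRat_eq_div]
  push_cast
  rfl

/-- The raw code of `nat3ToRat t`, by `ℕ`-arithmetic. -/
def rawOfNat3 (t : ℕ × ℕ × ℕ) : ℕ :=
  if t.2.2 = 0 then Nat.pair 0 1
  else
    Nat.pair
      (encSub ((t.1 - t.2.1) / Nat.gcd t.2.2 ((t.1 - t.2.1) + (t.2.1 - t.1)))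
        ((t.2.1 - t.1) / Nat.gcd t.2.2 ((t.1 - t.2.1) + (t.2.1 - t.1))))
      (t.2.2 / Nat.gcd t.2.2 ((t.1 - t.2.1) + (t.2.1 - t.1)))

theorem rawEnc_nat3ToRat (t : ℕ × ℕ × ℕ) : rawEnc (nat3ToRat t) = rawOfNat3 t := by
  obtain ⟨a, b, d⟩ := t
  unfold rawEnc nat3ToRat rawOfNat3
  simp only
  rw [Rat.num_mkRat, Rat.den_mkRat]
  by_cases hd : d = 0
  · simp [hd]
    rfl
  · simp only [hd, if_false]
    have habs : ((a : ℤ) - b).natAbs = (a - b) + (b - a) := by omega
    rw [habs]
    set g := Nat.gcd d ((a - b) + (b - a)) with hg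
    have hgpos : 0 < g := Nat.gcd_pos_of_pos_left _ (Nat.pos_of_ne_zero hd)
    have hgdvd : g ∣ (a - b) + (b - a) := Nat.gcd_dvd_right _ _
    congr 1
    rw [← encode_sub_nat]
    congr 1
    rcases Nat.le_total b a with h | h
    · have h0 : b - a = 0 := by omega
      rw [h0, Nat.zero_div]
      have : ((a : ℤ) - b) = ((a - b : ℕ) : ℤ) := by omega
      rw [this]
      simp
    · have h0 : a - b = 0 := by omega
      rw [h0, Nat.zero_div]
      have : ((a : ℤ) - b) = -((b - a : ℕ) : ℤ) := by omega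
      rw [this]
      have hdvd : (g : ℤ) ∣ ((b - a : ℕ) : ℤ) := by
        have : g ∣ b - a := by rw [h0, zero_add] at hgdvd; exact hgdvd
        exact Int.natCast_dvd_natCast.2 this
      rw [Int.neg_ediv_of_dvd hdvd]
      simp

theorem primrec_rawOfNat3 : Primrec rawOfNat3 := by
  unfold rawOfNat3
  have ha : Primrec (fun t : ℕ × ℕ × ℕ => t.1) := Primrec.fst
  have hb : Primrec (fun t : ℕ × ℕ × ℕ => t.2.1) := Primrec.fst.comp Primrec.snd
  have hd : Primrec (fun t : ℕ × ℕ × ℕ => t.2.2) := Primrec.snd.comp Primrec.snd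
  have hab : Primrec (fun t : ℕ × ℕ × ℕ => t.1 - t.2.1) := Primrec.nat_sub.comp ha hb
  have hba : Primrec (fun t : ℕ × ℕ × ℕ => t.2.1 - t.1) := Primrec.nat_sub.comp hb ha
  have hg : Primrec (fun t : ℕ × ℕ × ℕ => Nat.gcd t.2.2 ((t.1 - t.2.1) + (t.2.1 - t.1))) :=
    primrec_gcd.comp hd (Primrec.nat_add.comp hab hba)
  refine Primrec.ite (Primrec.eq.comp hd (Primrec.const 0)) (Primrec.const _) ?_
  refine Primrec₂.natPair.comp ?_ (Primrec.nat_div.comp hd hg)
  exact primrec_encSub.comp (Primrec.nat_div.comp hab hg) (Primrec.nat_div.comp hba hg)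

theorem primrec_nat3ToRat : Primrec nat3ToRat := by
  refine Primrec.encode_iff.1 ?_
  have h : Primrec (fun t => cnt (rawOfNat3 t)) := primrec_cnt.comp primrec_rawOfNat3
  refine h.of_eq fun t => ?_
  rw [← rawEnc_nat3ToRat, ← encQ_eq]
  rfl


/-! ### `ℚ → ℕ³` -/

/-- `q ↦ (q.num.toNat, (-q.num).toNat, q.den)`. -/
def ratToNat3 (q : ℚ) : ℕ × ℕ × ℕ := (q.num.toNat, (-q.num).toNat, q.den)

theorem nat3ToRat_ratToNat3 (q : ℚ) : nat3ToRat (ratToNat3 q) = q := by
  unfold nat3ToRat ratToNat3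
  simp only
  rw [Int.toNat_sub_toNat_neg, Rat.mkRat_self]

theorem ratToNat3_den_pos (q : ℚ) : 0 < (ratToNat3 q).2.2 := q.den_pos

theorem primrec_ratToNat3 : Primrec ratToNat3 := by
  have h : Primrec (fun m : ℕ =>
      ((if m.unpair.1 % 2 = 0 then m.unpair.1 / 2 else 0,
        if m.unpair.1 % 2 = 0 then 0 else (m.unpair.1 + 1) / 2, m.unpair.2) : ℕ × ℕ × ℕ)) := by
    have h1 : Primrec (fun m : ℕ => m.unpair.1) := Primrec.fst.comp Primrec.unpair
    have h2 : Primrec (fun m : ℕ => m.unpair.2) := Primrec.snd.comp Primrec.unpair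
    have hc : PrimrecPred (fun m : ℕ => m.unpair.1 % 2 = 0) :=
      Primrec.eq.comp (Primrec.nat_mod.comp h1 (Primrec.const 2)) (Primrec.const 0)
    refine Primrec.pair ?_ (Primrec.pair ?_ h2)
    · exact Primrec.ite hc (Primrec.nat_div.comp h1 (Primrec.const 2)) (Primrec.const 0)
    · exact Primrec.ite hc (Primrec.const 0)
        (Primrec.nat_div.comp (Primrec.nat_add.comp h1 (Primrec.const 1)) (Primrec.const 2))
  refine (h.comp primrec_rawEnc).of_eq fun q => ?_
  unfold ratToNat3 rawEnc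
  rw [Nat.unpair_pair]
  simp only
  rw [toNat_eq_encode, toNat_neg_eq_encode]

/-! ### Arithmetic on triples -/

section triples

variable (s t : ℕ × ℕ × ℕ)

/-- addition on triples -/
def add3 (s t : ℕ × ℕ × ℕ) : ℕ × ℕ × ℕ :=
  (s.1 * t.2.2 + t.1 * s.2.2, s.2.1 * t.2.2 + t.2.1 * s.2.2, s.2.2 * t.2.2)

/-- multiplication on triples -/
def mul3 (s t : ℕ × ℕ × ℕ) : ℕ × ℕ × ℕ :=
  (s.1 * t.1 + s.2.1 * t.2.1, s.1 * t.2.1 + s.2.1 * t.1, s.2.2 * t.2.2)

/-- negation on triples -/
def neg3 (s : ℕ × ℕ × ℕ) : ℕ × ℕ × ℕ := (s.2.1, s.1, s.2.2)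

/-- inversion on triples -/
def inv3 (s : ℕ × ℕ × ℕ) : ℕ × ℕ × ℕ :=
  if s.2.1 < s.1 then (s.2.2, 0, s.1 - s.2.1)
  else if s.1 < s.2.1 then (0, s.2.2, s.2.1 - s.1) else (0, 0, 1)

/-- `≤` test on triples -/
def le3 (s t : ℕ × ℕ × ℕ) : Bool :=
  decide (s.1 * t.2.2 + t.2.1 * s.2.2 ≤ t.1 * s.2.2 + s.2.1 * t.2.2)

theorem nat3ToRat_add3 (hs : s.2.2 ≠ 0) (ht : t.2.2 ≠ 0) :
    nat3ToRat (add3 s t) = nat3ToRat s + nat3ToRat t := by
  obtain ⟨a, b, d⟩ := s
  obtain ⟨a', b', d'⟩ := t
  simp only [nat3ToRat_eq, add3] at *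
  have hd : (d : ℚ) ≠ 0 := Nat.cast_ne_zero.2 hs
  have hd' : (d' : ℚ) ≠ 0 := Nat.cast_ne_zero.2 ht
  push_cast
  field_simp
  ring

theorem nat3ToRat_mul3 : nat3ToRat (mul3 s t) = nat3ToRat s * nat3ToRat t := by
  obtain ⟨a, b, d⟩ := s
  obtain ⟨a', b', d'⟩ := t
  simp only [nat3ToRat_eq, mul3] at *
  push_cast
  rw [div_mul_div_comm]
  congr 1
  ring

theorem nat3ToRat_neg3 : nat3ToRat (neg3 s) = - nat3ToRat s := by
  obtain ⟨a, b, d⟩ := s
  simp only [nat3ToRat_eq, neg3]
  rw [← neg_div]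
  congr 1
  ring

theorem nat3ToRat_inv3 (hs : s.2.2 ≠ 0) : nat3ToRat (inv3 s) = (nat3ToRat s)⁻¹ := by
  obtain ⟨a, b, d⟩ := s
  simp only [nat3ToRat_eq, inv3] at *
  have hd : (d : ℚ) ≠ 0 := Nat.cast_ne_zero.2 hs
  split_ifs with h1 h2
  · simp only [Nat.cast_zero, sub_zero]
    rw [inv_div, Nat.cast_sub h1.le]
  · simp only [Nat.cast_zero, zero_sub]
    rw [inv_div, Nat.cast_sub h2.le, neg_div, ← div_neg]
    congr 1
    ring
  · have : a = b := by omega
    subst this
    simp

theorem le3_iff (hs : 0 < s.2.2) (ht : 0 < t.2.2) :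
    le3 s t = true ↔ nat3ToRat s ≤ nat3ToRat t := by
  obtain ⟨a, b, d⟩ := s
  obtain ⟨a', b', d'⟩ := t
  simp only [nat3ToRat_eq, le3, decide_eq_true_eq] at *
  have hd : (0 : ℚ) < d := Nat.cast_pos.2 hs
  have hd' : (0 : ℚ) < d' := Nat.cast_pos.2 ht
  rw [div_le_div_iff₀ hd hd']
  constructor
  · intro h
    have h' : ((a * d' + b' * d : ℕ) : ℚ) ≤ ((a' * d + b * d' : ℕ) : ℚ) := Nat.cast_le.2 h
    push_cast at h'
    linarith
  · intro h
    have h' : ((a * d' + b' * d : ℕ) : ℚ) ≤ ((a' * d + b * d' : ℕ) : ℚ) := by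
      push_cast
      linarith
    exact Nat.cast_le.1 h'

end triples

section primrec3

private theorem p11 : Primrec (fun p : (ℕ × ℕ × ℕ) × (ℕ × ℕ × ℕ) => p.1.1) :=
  Primrec.fst.comp Primrec.fst
private theorem p12 : Primrec (fun p : (ℕ × ℕ × ℕ) × (ℕ × ℕ × ℕ) => p.1.2.1) :=
  Primrec.fst.comp (Primrec.snd.comp Primrec.fst)
private theorem p13 : Primrec (fun p : (ℕ × ℕ × ℕ) × (ℕ × ℕ × ℕ) => p.1.2.2) :=
  Primrec.snd.comp (Primrec.snd.comp Primrec.fst)
private theorem p21 : Primrec (fun p : (ℕ × ℕ × ℕ) × (ℕ × ℕ × ℕ) => p.2.1) :=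
  Primrec.fst.comp Primrec.snd
private theorem p22 : Primrec (fun p : (ℕ × ℕ × ℕ) × (ℕ × ℕ × ℕ) => p.2.2.1) :=
  Primrec.fst.comp (Primrec.snd.comp Primrec.snd)
private theorem p23 : Primrec (fun p : (ℕ × ℕ × ℕ) × (ℕ × ℕ × ℕ) => p.2.2.2) :=
  Primrec.snd.comp (Primrec.snd.comp Primrec.snd)

private theorem pmul {α : Type} [Primcodable α] {f g : α → ℕ} (hf : Primrec f) (hg : Primrec g) :
    Primrec (fun a => f a * g a) := Primrec.nat_mul.comp hf hg
private theorem padd {α : Type} [Primcodable α] {f g : α → ℕ} (hf : Primrec f) (hg : Primrec g) :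
    Primrec (fun a => f a + g a) := Primrec.nat_add.comp hf hg

theorem primrec_add3 : Primrec₂ add3 := by
  unfold add3
  exact Primrec.pair (padd (pmul p11 p23) (pmul p21 p13))
    (Primrec.pair (padd (pmul p12 p23) (pmul p22 p13)) (pmul p13 p23))

theorem primrec_mul3 : Primrec₂ mul3 := by
  unfold mul3
  exact Primrec.pair (padd (pmul p11 p21) (pmul p12 p22))
    (Primrec.pair (padd (pmul p11 p22) (pmul p12 p21)) (pmul p13 p23))

theorem primrec_neg3 : Primrec neg3 := by
  unfold neg3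
  exact Primrec.pair (Primrec.fst.comp Primrec.snd)
    (Primrec.pair Primrec.fst (Primrec.snd.comp Primrec.snd))

theorem primrec_inv3 : Primrec inv3 := by
  unfold inv3
  have ha : Primrec (fun t : ℕ × ℕ × ℕ => t.1) := Primrec.fst
  have hb : Primrec (fun t : ℕ × ℕ × ℕ => t.2.1) := Primrec.fst.comp Primrec.snd
  have hd : Primrec (fun t : ℕ × ℕ × ℕ => t.2.2) := Primrec.snd.comp Primrec.snd
  refine Primrec.ite (Primrec.nat_lt.comp hb ha) ?_ ?_
  · exact Primrec.pair hd (Primrec.pair (Primrec.const 0) (Primrec.nat_sub.comp ha hb))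
  · refine Primrec.ite (Primrec.nat_lt.comp ha hb) ?_ (Primrec.const _)
    exact Primrec.pair (Primrec.const 0) (Primrec.pair hd (Primrec.nat_sub.comp hb ha))

theorem primrec_le3 : Primrec₂ le3 := by
  unfold le3
  refine PrimrecRel.decide (R := fun (s t : ℕ × ℕ × ℕ) =>
    s.1 * t.2.2 + t.2.1 * s.2.2 ≤ t.1 * s.2.2 + s.2.1 * t.2.2) ?_
  exact Primrec.nat_le.comp (padd (pmul p11 p23) (pmul p22 p13))
    (padd (pmul p21 p13) (pmul p12 p23))

end primrec3

/-! ### Primitive recursive operations on `ℚ` -/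

section ops

variable {α : Type} [Primcodable α]

theorem primrec_rat_of_nat3 {f : α → ℚ} {g : α → ℕ × ℕ × ℕ} (hg : Primrec g)
    (h : ∀ a, f a = nat3ToRat (g a)) : Primrec f :=
  (primrec_nat3ToRat.comp hg).of_eq fun a => (h a).symm

theorem primrec_rat_add {f g : α → ℚ} (hf : Primrec f) (hg : Primrec g) :
    Primrec (fun a => f a + g a) := by
  refine primrec_rat_of_nat3
    (g := fun a => add3 (ratToNat3 (f a)) (ratToNat3 (g a)))
    (primrec_add3.comp (primrec_ratToNat3.comp hf) (primrec_ratToNat3.comp hg)) ?_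
  intro a
  rw [nat3ToRat_add3 _ _ (ratToNat3_den_pos _).ne' (ratToNat3_den_pos _).ne',
    nat3ToRat_ratToNat3, nat3ToRat_ratToNat3]

theorem primrec_rat_mul {f g : α → ℚ} (hf : Primrec f) (hg : Primrec g) :
    Primrec (fun a => f a * g a) := by
  refine primrec_rat_of_nat3
    (g := fun a => mul3 (ratToNat3 (f a)) (ratToNat3 (g a)))
    (primrec_mul3.comp (primrec_ratToNat3.comp hf) (primrec_ratToNat3.comp hg)) ?_
  intro a
  rw [nat3ToRat_mul3, nat3ToRat_ratToNat3, nat3ToRat_ratToNat3]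

theorem primrec_rat_neg {f : α → ℚ} (hf : Primrec f) :
    Primrec (fun a => - f a) := by
  refine primrec_rat_of_nat3 (g := fun a => neg3 (ratToNat3 (f a)))
    (primrec_neg3.comp (primrec_ratToNat3.comp hf)) ?_
  intro a
  rw [nat3ToRat_neg3, nat3ToRat_ratToNat3]

theorem primrec_rat_inv {f : α → ℚ} (hf : Primrec f) :
    Primrec (fun a => (f a)⁻¹) := by
  refine primrec_rat_of_nat3 (g := fun a => inv3 (ratToNat3 (f a)))
    (primrec_inv3.comp (primrec_ratToNat3.comp hf)) ?_
  intro a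
  rw [nat3ToRat_inv3 _ (ratToNat3_den_pos _).ne', nat3ToRat_ratToNat3]

theorem primrec_rat_sub {f g : α → ℚ} (hf : Primrec f) (hg : Primrec g) :
    Primrec (fun a => f a - g a) :=
  (primrec_rat_add hf (primrec_rat_neg hg)).of_eq fun _ => (sub_eq_add_neg _ _).symm

theorem primrec_rat_div {f g : α → ℚ} (hf : Primrec f) (hg : Primrec g) :
    Primrec (fun a => f a / g a) :=
  (primrec_rat_mul hf (primrec_rat_inv hg)).of_eq fun _ => (div_eq_mul_inv _ _).symm

theorem primrec_rat_natCast {f : α → ℕ} (hf : Primrec f) :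
    Primrec (fun a => (f a : ℚ)) := by
  refine primrec_rat_of_nat3 (g := fun a => (f a, 0, 1))
    (hf.pair (Primrec.const _)) ?_
  intro a
  simp [nat3ToRat_eq]

theorem primrec_rat_le {f g : α → ℚ} (hf : Primrec f) (hg : Primrec g) :
    PrimrecPred (fun a => f a ≤ g a) := by
  refine Primrec.primrecPred ?_
  refine (primrec_le3.comp (primrec_ratToNat3.comp hf)
    (primrec_ratToNat3.comp hg)).of_eq fun a => ?_
  rw [Bool.eq_iff_iff, le3_iff _ _ (ratToNat3_den_pos _) (ratToNat3_den_pos _),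
    nat3ToRat_ratToNat3, nat3ToRat_ratToNat3, decide_eq_true_iff]

theorem primrec_rat_lt {f g : α → ℚ} (hf : Primrec f) (hg : Primrec g) :
    PrimrecPred (fun a => f a < g a) :=
  (primrec_rat_le hg hf).not.of_eq fun _ => not_le

/-- the denominator is primitive recursive. -/
theorem primrec_rat_den {f : α → ℚ} (hf : Primrec f) : Primrec (fun a => (f a).den) :=
  (Primrec.snd.comp (Primrec.snd.comp (primrec_ratToNat3.comp hf)))

theorem natCeil_rat (q : ℚ) : ⌈q⌉₊ = (q.num.toNat + (q.den - 1)) / q.den := by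
  have hd : 0 < q.den := q.den_pos
  refine eq_of_forall_ge_iff fun n => ?_
  rw [Nat.ceil_le, Nat.div_le_iff_le_mul_add_pred hd]
  have hq : q ≤ (n : ℚ) ↔ q.num ≤ (n : ℤ) * q.den := by
    have hd' : (0 : ℚ) < q.den := Nat.cast_pos.2 hd
    conv_lhs => rw [← Rat.num_div_den q]
    rw [div_le_iff₀ hd']
    exact_mod_cast Iff.rfl
  rw [hq]
  constructor
  · intro h
    have : q.num.toNat ≤ n * q.den := by
      rw [Int.toNat_le]; exact_mod_cast h
    nlinarith [this]
  · intro h
    have : q.num.toNat ≤ n * q.den := by nlinarith [h]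
    have := Int.toNat_le.1 this
    exact_mod_cast this

/-- `⌈q⌉₊` is primitive recursive. -/
theorem primrec_rat_natCeil {f : α → ℚ} (hf : Primrec f) :
    Primrec (fun a => ⌈f a⌉₊) := by
  have h : Primrec (fun t : ℕ × ℕ × ℕ => (t.1 + (t.2.2 - 1)) / t.2.2) :=
    Primrec.nat_div.comp
      (Primrec.nat_add.comp Primrec.fst
        (Primrec.nat_sub.comp (Primrec.snd.comp Primrec.snd) (Primrec.const 1)))
      (Primrec.snd.comp Primrec.snd)
  refine (h.comp (primrec_ratToNat3.comp hf)).of_eq fun a => ?_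
  rw [natCeil_rat]
  rfl

/-- powers -/
theorem primrec_rat_pow {f : α → ℚ} {g : α → ℕ} (hf : Primrec f) (hg : Primrec g) :
    Primrec (fun a => f a ^ g a) := by
  have h : Primrec (fun a => Nat.rec (motive := fun _ => ℚ) (1 : ℚ)
      (fun _ ih => ih * f a) (g a)) := by
    refine Primrec.nat_rec' (g := fun _ => (1 : ℚ)) (h := fun a p => p.2 * f a) hg
      (Primrec.const 1) ?_
    exact primrec_rat_mul (Primrec.snd.comp Primrec.snd) (hf.comp Primrec.fst)
  refine h.of_eq fun a => ?_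
  induction g a with
  | zero => simp
  | succ k ih => simp only [pow_succ, ← ih]

/-- finite sums over `Finset.range` -/
theorem primrec_rat_sum_range {f : α → ℕ → ℚ} {g : α → ℕ} (hf : Primrec₂ f) (hg : Primrec g) :
    Primrec (fun a => ∑ i ∈ Finset.range (g a), f a i) := by
  have h : Primrec (fun a => Nat.rec (motive := fun _ => ℚ) (0 : ℚ)
      (fun i ih => ih + f a i) (g a)) := by
    refine Primrec.nat_rec' (g := fun _ => (0 : ℚ)) (h := fun a p => p.2 + f a p.1) hg
      (Primrec.const 0) ?_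
    exact primrec_rat_add (Primrec.snd.comp Primrec.snd)
      (hf.comp Primrec.fst (Primrec.fst.comp Primrec.snd))
  refine h.of_eq fun a => ?_
  induction g a with
  | zero => simp
  | succ k ih => simp only [Finset.sum_range_succ, ← ih]

theorem primrec_rat_abs {f : α → ℚ} (hf : Primrec f) : Primrec (fun a => |f a|) := by
  have h : Primrec (fun a => if 0 ≤ f a then f a else - f a) :=
    Primrec.ite (primrec_rat_le (Primrec.const 0) hf) hf (primrec_rat_neg hf)
  refine h.of_eq fun a => ?_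
  split_ifs with h0
  · exact (abs_of_nonneg h0).symm
  · exact (abs_of_neg (not_le.1 h0)).symm

end ops

end Crest.Agent.Helper28
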