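import Crest.Agent.Helper28.RatComputable

/-!
# Primitive recursive rational approximations of `expNegInvGlue` and `Real.smoothTransition`
(helper28, for S0170)
-/

set_option autoImplicit false

namespace Crest.Agent.Helper28

open Finset

theorem primrec_factorial : Primrec Nat.factorial := by
  have h : Primrec (fun n : ℕ => Nat.rec (motive := fun _ => ℕ) 1 (fun k ih => (k + 1) * ih) n) :=
    Primrec.nat_rec₁ 1 (Primrec.nat_mul.comp (Primrec.succ.comp Primrec.fst) Primrec.snd)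
  refine h.of_eq fun n => ?_
  induction n with
  | zero => rfl
  | succ k ih => simp only [Nat.factorial_succ, ← ih]

/-- Taylor partial sum of `exp (-z)`. -/
def expNegSum (z : ℚ) (K : ℕ) : ℚ := ∑ m ∈ range K, (-z) ^ m / (m.factorial : ℚ)

/-- Clamp to `[0,1]`. -/
def clamp01 (q : ℚ) : ℚ := min 1 (max 0 q)

/-- Approximation of `expNegInvGlue x` within `1/(n+1)`. -/
def glueApprox (p : ℚ × ℕ) : ℚ :=
  if p.1 ≤ 0 then 0
  else (clamp01 (expNegSum (p.1⁻¹ / (⌈p.1⁻¹⌉₊ : ℚ)) (2 * ⌈p.1⁻¹⌉₊ * (p.2 + 1)))) ^ ⌈p.1⁻¹⌉₊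

theorem primrec_expNegSum : Primrec₂ expNegSum := by
  unfold expNegSum
  refine primrec_rat_sum_range (f := fun (p : ℚ × ℕ) (m : ℕ) => (-p.1) ^ m / (m.factorial : ℚ))
    ?_ Primrec.snd
  refine primrec_rat_div ?_ ?_
  · exact primrec_rat_pow (primrec_rat_neg (Primrec.fst.comp Primrec.fst)) Primrec.snd
  · exact primrec_rat_natCast (primrec_factorial.comp Primrec.snd)

theorem primrec_clamp01 : Primrec clamp01 := by
  have h : Primrec (fun q : ℚ => if q ≤ 0 then (0 : ℚ) else if 1 ≤ q then 1 else q) :=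
    Primrec.ite (primrec_rat_le Primrec.id (Primrec.const 0)) (Primrec.const 0)
      (Primrec.ite (primrec_rat_le (Primrec.const 1) Primrec.id) (Primrec.const 1) Primrec.id)
  refine h.of_eq fun q => ?_
  unfold clamp01
  split_ifs with h1 h2
  · rw [max_eq_left h1]; simp
  · rw [max_eq_right (by linarith), min_eq_left h2]
  · rw [max_eq_right (le_of_not_ge h1), min_eq_right (le_of_not_ge h2)]

theorem primrec_glueApprox : Primrec glueApprox := by
  unfold glueApprox
  have hx : Primrec (fun p : ℚ × ℕ => p.1) := Primrec.fst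
  have hy : Primrec (fun p : ℚ × ℕ => p.1⁻¹) := primrec_rat_inv hx
  have hN : Primrec (fun p : ℚ × ℕ => ⌈p.1⁻¹⌉₊) := primrec_rat_natCeil hy
  have hz : Primrec (fun p : ℚ × ℕ => p.1⁻¹ / (⌈p.1⁻¹⌉₊ : ℚ)) :=
    primrec_rat_div hy (primrec_rat_natCast hN)
  have hK : Primrec (fun p : ℚ × ℕ => 2 * ⌈p.1⁻¹⌉₊ * (p.2 + 1)) :=
    Primrec.nat_mul.comp (Primrec.nat_mul.comp (Primrec.const 2) hN)
      (Primrec.succ.comp Primrec.snd)
  refine Primrec.ite (primrec_rat_le hx (Primrec.const 0)) (Primrec.const 0) ?_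
  exact primrec_rat_pow (primrec_clamp01.comp (primrec_expNegSum.comp hz hK)) hN

/-! ### Error analysis -/

theorem exp_neg_sub_sum_le (z : ℝ) (hz0 : 0 ≤ z) (hz1 : z ≤ 1) (K : ℕ) (hK : 0 < K) :
    |Real.exp (-z) - ∑ m ∈ range K, (-z) ^ m / (m.factorial : ℝ)| ≤ 2 / (K.factorial : ℝ) := by
  have habs : |(-z)| ≤ 1 := by rw [abs_neg, abs_of_nonneg hz0]; exact hz1
  refine (Real.exp_bound habs hK).trans ?_
  have hK' : (0 : ℝ) < K := Nat.cast_pos.2 hK
  have hf : (0 : ℝ) < K.factorial := Nat.cast_pos.2 (Nat.factorial_pos K)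
  have h1 : |(-z)| ^ K ≤ 1 := pow_le_one₀ (abs_nonneg _) habs
  have h2 : ((K.succ : ℕ) : ℝ) / ((K.factorial : ℝ) * K) ≤ 2 / (K.factorial : ℝ) := by
    rw [div_le_div_iff₀ (by positivity) hf]
    have : (1 : ℝ) ≤ K := by exact_mod_cast hK
    push_cast
    nlinarith
  calc |(-z)| ^ K * (((K.succ : ℕ) : ℝ) / ((K.factorial : ℝ) * K))
      ≤ 1 * (2 / (K.factorial : ℝ)) :=
        mul_le_mul h1 h2 (by positivity) zero_le_one
    _ = 2 / (K.factorial : ℝ) := one_mul _

theorem abs_sub_clamp_le (a s : ℝ) (ha0 : 0 ≤ a) (ha1 : a ≤ 1) :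
    |a - min 1 (max 0 s)| ≤ |a - s| := by
  rcases le_total s 0 with h | h
  · rw [max_eq_left h, min_eq_right zero_le_one, sub_zero, abs_of_nonneg ha0,
      abs_of_nonneg (by linarith)]
    linarith
  · rw [max_eq_right h]
    rcases le_total s 1 with h' | h'
    · rw [min_eq_right h']
    · rw [min_eq_left h', abs_of_nonpos (by linarith), abs_of_nonpos (by linarith)]
      linarith

theorem glueApprox_spec (x : ℚ) (n : ℕ) :
    |expNegInvGlue (x : ℝ) - (glueApprox (x, n) : ℝ)| ≤ 1 / ((n : ℝ) + 1) := by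
  have hn : (0 : ℝ) < (n : ℝ) + 1 := by positivity
  unfold glueApprox
  simp only
  split_ifs with hx
  · have : (x : ℝ) ≤ 0 := by exact_mod_cast hx
    rw [expNegInvGlue.zero_of_nonpos this]
    simp only [Rat.cast_zero, sub_zero, abs_zero]
    positivity
  · have hx' : 0 < x := lt_of_not_ge hx
    have hxR : (0 : ℝ) < (x : ℝ) := by exact_mod_cast hx'
    set y : ℚ := x⁻¹ with hy
    have hy0 : 0 < y := inv_pos.2 hx'
    set N : ℕ := ⌈y⌉₊ with hN
    have hNpos : 0 < N := Nat.ceil_pos.2 hy0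
    have hNy : y ≤ (N : ℚ) := Nat.le_ceil y
    set z : ℚ := y / (N : ℚ) with hz
    have hNq : (0 : ℚ) < (N : ℚ) := Nat.cast_pos.2 hNpos
    have hz0 : 0 ≤ z := div_nonneg hy0.le hNq.le
    have hz1 : z ≤ 1 := (div_le_one hNq).2 hNy
    set K : ℕ := 2 * N * (n + 1) with hK
    have hKpos : 0 < K := by positivity
    -- the real quantities
    have hz0R : (0 : ℝ) ≤ (z : ℝ) := by exact_mod_cast hz0
    have hz1R : (z : ℝ) ≤ 1 := by exact_mod_cast hz1
    have hglue : expNegInvGlue (x : ℝ) = Real.exp (-(z : ℝ)) ^ N := by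
      unfold expNegInvGlue
      rw [if_neg (not_le.2 hxR), ← Real.exp_nat_mul]
      congr 1
      have : ((N : ℝ)) * (z : ℝ) = (y : ℝ) := by
        rw [hz]; push_cast
        have : (N : ℝ) ≠ 0 := by positivity
        field_simp
      rw [mul_neg, this, hy]; push_cast; rfl
    have hcast : ((clamp01 (expNegSum z K) ^ N : ℚ) : ℝ)
        = (min 1 (max 0 (∑ m ∈ range K, (-(z : ℝ)) ^ m / (m.factorial : ℝ)))) ^ N := by
      unfold clamp01 expNegSum
      push_cast
      rfl
    rw [hglue, hcast]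
    set a : ℝ := Real.exp (-(z : ℝ)) with ha
    set S : ℝ := ∑ m ∈ range K, (-(z : ℝ)) ^ m / (m.factorial : ℝ) with hS
    have ha0 : 0 ≤ a := (Real.exp_pos _).le
    have ha1 : a ≤ 1 := Real.exp_le_one_iff.2 (by linarith)
    set b : ℝ := min 1 (max 0 S) with hb
    have hb0 : 0 ≤ b := le_min zero_le_one (le_max_left _ _)
    have hb1 : b ≤ 1 := min_le_left _ _
    have hab : |a - b| ≤ 2 / (K.factorial : ℝ) :=
      (abs_sub_clamp_le a S ha0 ha1).trans (exp_neg_sub_sum_le z hz0R hz1R K hKpos)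
    have hpow := abs_pow_sub_pow_le a b N
    have hmax : max |a| |b| ^ (N - 1) ≤ 1 := by
      apply pow_le_one₀ (le_max_of_le_left (abs_nonneg _))
      rw [abs_of_nonneg ha0, abs_of_nonneg hb0]
      exact max_le ha1 hb1
    have hfac : (K : ℝ) ≤ (K.factorial : ℝ) := by exact_mod_cast Nat.self_le_factorial K
    have hKR : (0 : ℝ) < K := by exact_mod_cast hKpos
    have hNR : (0 : ℝ) < N := by exact_mod_cast hNpos
    calc |a ^ N - b ^ N| ≤ |a - b| * N * max |a| |b| ^ (N - 1) := hpow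
      _ ≤ |a - b| * N * 1 := by
          apply mul_le_mul_of_nonneg_left hmax (by positivity)
      _ = |a - b| * N := mul_one _
      _ ≤ 2 / (K.factorial : ℝ) * N := mul_le_mul_of_nonneg_right hab hNR.le
      _ ≤ 2 / (K : ℝ) * N := by
          apply mul_le_mul_of_nonneg_right _ hNR.le
          exact div_le_div_of_nonneg_left (by norm_num) hKR hfac
      _ = 1 / ((n : ℝ) + 1) := by
          rw [hK]; push_cast; field_simp

/-! ### The plateau `Real.smoothTransition` -/

/-- Approximation of `Real.smoothTransition x` within `1/(n+1)`. -/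
def stApprox (p : ℚ × ℕ) : ℚ :=
  glueApprox (p.1, 512 * p.2 + 511) /
    (glueApprox (p.1, 512 * p.2 + 511) + glueApprox (1 - p.1, 512 * p.2 + 511))

theorem primrec_stApprox : Primrec stApprox := by
  unfold stApprox
  have hm : Primrec (fun p : ℚ × ℕ => 512 * p.2 + 511) :=
    Primrec.nat_add.comp (Primrec.nat_mul.comp (Primrec.const 512) Primrec.snd)
      (Primrec.const 511)
  have h1 : Primrec (fun p : ℚ × ℕ => glueApprox (p.1, 512 * p.2 + 511)) :=
    primrec_glueApprox.comp (Primrec.pair Primrec.fst hm)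
  have h2 : Primrec (fun p : ℚ × ℕ => glueApprox (1 - p.1, 512 * p.2 + 511)) :=
    primrec_glueApprox.comp
      (Primrec.pair (primrec_rat_sub (Primrec.const 1) Primrec.fst) hm)
  exact primrec_rat_div h1 (primrec_rat_add h1 h2)

theorem expNegInvGlue_le_one (x : ℝ) : expNegInvGlue x ≤ 1 := by
  unfold expNegInvGlue
  split_ifs with h
  · exact zero_le_one
  · exact Real.exp_le_one_iff.2 (neg_nonpos.2 (inv_nonneg.2 (le_of_not_ge h)))

theorem exp_neg_two_ge : (1 : ℝ) / 8 ≤ Real.exp (-2) := by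
  have h1 : Real.exp 2 < 8 := by
    have : Real.exp 2 = Real.exp 1 * Real.exp 1 := by rw [← Real.exp_add]; norm_num
    rw [this]
    have h := Real.exp_one_lt_d9
    have hpos := Real.exp_pos 1
    nlinarith
  rw [Real.exp_neg, one_div]
  exact inv_anti₀ (Real.exp_pos 2) h1.le

theorem expNegInvGlue_ge_of_half_le (t : ℝ) (ht : 1 / 2 ≤ t) : (1 : ℝ) / 8 ≤ expNegInvGlue t := by
  have htpos : 0 < t := by linarith
  unfold expNegInvGlue
  rw [if_neg (not_le.2 htpos)]
  refine exp_neg_two_ge.trans (Real.exp_le_exp.2 ?_)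
  have : t⁻¹ ≤ 2 := by
    rw [inv_le_comm₀ htpos (by norm_num)]
    linarith
  linarith

theorem denom_ge (x : ℝ) : (1 : ℝ) / 8 ≤ expNegInvGlue x + expNegInvGlue (1 - x) := by
  rcases le_total x (1 / 2) with h | h
  · have := expNegInvGlue_ge_of_half_le (1 - x) (by linarith)
    linarith [expNegInvGlue.nonneg x]
  · have := expNegInvGlue_ge_of_half_le x h
    linarith [expNegInvGlue.nonneg (1 - x)]

theorem stApprox_spec (x : ℚ) (n : ℕ) :
    |Real.smoothTransition (x : ℝ) - (stApprox (x, n) : ℝ)| ≤ 1 / ((n : ℝ) + 1) := by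
  have hn : (0 : ℝ) < (n : ℝ) + 1 := by positivity
  set m : ℕ := 512 * n + 511 with hm
  set f : ℝ := expNegInvGlue (x : ℝ) with hf
  set g : ℝ := expNegInvGlue (1 - (x : ℝ)) with hg
  set f' : ℝ := (glueApprox (x, m) : ℝ) with hf'
  set g' : ℝ := (glueApprox (1 - x, m) : ℝ) with hg'
  set δ : ℝ := 1 / (512 * ((n : ℝ) + 1)) with hδ
  have hδpos : 0 < δ := by positivity
  have hδle : δ ≤ 1 / 512 := by
    rw [hδ]
    apply div_le_div_of_nonneg_left (by norm_num) (by norm_num)
    have : (0 : ℝ) ≤ n := Nat.cast_nonneg n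
    linarith
  have hmδ : 1 / ((m : ℝ) + 1) = δ := by
    rw [hδ, hm]; push_cast; ring_nf
  have e1 : |f - f'| ≤ δ := by
    have := glueApprox_spec x m
    rwa [hmδ] at this
  have e2 : |g - g'| ≤ δ := by
    have := glueApprox_spec (1 - x) m
    rw [hmδ] at this
    have hc : (((1 - x : ℚ)) : ℝ) = 1 - (x : ℝ) := by push_cast; ring
    rwa [hc] at this
  have hf0 : 0 ≤ f := expNegInvGlue.nonneg _
  have hf1 : f ≤ 1 := expNegInvGlue_le_one _
  have hD : 1 / 8 ≤ f + g := denom_ge _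
  have hcast : ((stApprox (x, n) : ℚ) : ℝ) = f' / (f' + g') := by
    unfold stApprox
    push_cast
    rfl
  have hst : Real.smoothTransition (x : ℝ) = f / (f + g) := rfl
  rw [hst, hcast]
  have a1 := abs_le.1 e1
  have a2 := abs_le.1 e2
  have hD' : 1 / 16 ≤ f' + g' := by linarith [a1.1, a1.2, a2.1, a2.2]
  have hDpos : 0 < f + g := by linarith
  have hD'pos : 0 < f' + g' := by linarith
  have key : f / (f + g) - f' / (f' + g')
      = (f * ((f' + g') - (f + g)) + (f + g) * (f - f')) / ((f + g) * (f' + g')) := by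
    field_simp
    ring
  rw [key, abs_div, abs_of_pos (mul_pos hDpos hD'pos), div_le_div_iff₀ (mul_pos hDpos hD'pos) hn]
  have hnum : |f * ((f' + g') - (f + g)) + (f + g) * (f - f')| ≤ 2 * δ + (f + g) * δ := by
    have h1 : |f * ((f' + g') - (f + g))| ≤ 2 * δ := by
      rw [abs_mul, abs_of_nonneg hf0]
      have : |(f' + g') - (f + g)| ≤ 2 * δ := by
        rw [abs_le]; constructor <;> linarith [a1.1, a1.2, a2.1, a2.2]
      calc f * |(f' + g') - (f + g)| ≤ 1 * (2 * δ) :=
            mul_le_mul hf1 this (abs_nonneg _) zero_le_one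
        _ = 2 * δ := one_mul _
    have h2 : |(f + g) * (f - f')| ≤ (f + g) * δ := by
      rw [abs_mul, abs_of_pos hDpos]
      exact mul_le_mul_of_nonneg_left e1 hDpos.le
    exact (abs_add_le _ _).trans (add_le_add h1 h2)
  have hδn : δ * ((n : ℝ) + 1) = 1 / 512 := by
    rw [hδ]; field_simp
  calc |f * ((f' + g') - (f + g)) + (f + g) * (f - f')| * ((n : ℝ) + 1)
      ≤ (2 * δ + (f + g) * δ) * ((n : ℝ) + 1) :=
        mul_le_mul_of_nonneg_right hnum hn.le
    _ = (2 + (f + g)) * (1 / 512) := by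
        rw [show (2 * δ + (f + g) * δ) * ((n : ℝ) + 1)
          = (2 + (f + g)) * (δ * ((n : ℝ) + 1)) by ring, hδn]
    _ ≤ (f + g) * (1 / 16) := by linarith
    _ ≤ (f + g) * (f' + g') := mul_le_mul_of_nonneg_left hD' hDpos.le
    _ = 1 * ((f + g) * (f' + g')) := (one_mul _).symm

/-- Existence form: a primitive recursive value approximator for `expNegInvGlue`. -/
theorem exists_glueApprox : ∃ A : ℚ × ℕ → ℚ, Primrec A ∧
    ∀ (x : ℚ) (n : ℕ), |expNegInvGlue (x : ℝ) - (A (x, n) : ℝ)| ≤ 1 / ((n : ℝ) + 1) :=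
  ⟨glueApprox, primrec_glueApprox, glueApprox_spec⟩

/-- Existence form: a primitive recursive value approximator for `Real.smoothTransition`. -/
theorem exists_stApprox : ∃ A : ℚ × ℕ → ℚ, Primrec A ∧
    ∀ (x : ℚ) (n : ℕ), |Real.smoothTransition (x : ℝ) - (A (x, n) : ℝ)| ≤ 1 / ((n : ℝ) + 1) :=
  ⟨stApprox, primrec_stApprox, stApprox_spec⟩

/-- Computable form of the value approximator for `Real.smoothTransition`. -/
theorem computable_stApprox : Computable stApprox := primrec_stApprox.to_comp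

end Crest.Agent.Helper28
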