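import Crest.Agent.Helper28.RatComputable
import Crest.Agent.Helper13.BoxEffDefs

/-!
helper28: the rational-arithmetic computability bundle `Crest.Agent.Helper13.QComp`, proved from
`Crest.Agent.Helper28.RatComputable`.
-/

set_option autoImplicit false

namespace Crest.Agent.Helper28

theorem qComp : Crest.Agent.Helper13.QComp where
  add := (primrec_rat_add Primrec.fst Primrec.snd).to_comp
  mul := (primrec_rat_mul Primrec.fst Primrec.snd).to_comp
  natCast := (primrec_rat_natCast Primrec.id).to_comp
  ubound := ⟨fun q => ⌈|q|⌉₊, (primrec_rat_natCeil (primrec_rat_abs Primrec.id)).to_comp,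
    fun _ => Nat.le_ceil _⟩

end Crest.Agent.Helper28
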