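import Mathlib
import Crest.Prelude.Def_BoxFlow

/-!
# Separation lemmas for rational boxes (helper28, S0170 PLAN-c)
-/

set_option autoImplicit false

namespace Crest.Agent.Helper28

open Crest.AnalysisR.BoxFlow

/-- Two boxes that are separated in some coordinate are disjoint. -/
theorem box_disjoint_of_sep (c w c' w' : Fin 3 → ℚ) (h : ∃ m, w m + w' m < |c m - c' m|) :
    Disjoint (box c w) (box c' w') := by
  obtain ⟨m, hm⟩ := h
  rw [Set.disjoint_left]
  intro x hx hx'
  have h1 : |x m - (c m : ℝ)| ≤ (w m : ℝ) := hx m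
  have h2 : |x m - (c' m : ℝ)| ≤ (w' m : ℝ) := hx' m
  have hm' : ((w m : ℝ) + (w' m : ℝ)) < |(c m : ℝ) - (c' m : ℝ)| := by exact_mod_cast hm
  have : |(c m : ℝ) - (c' m : ℝ)| ≤ |x m - (c m : ℝ)| + |x m - (c' m : ℝ)| := by
    have := abs_sub_le (c m : ℝ) (x m) (c' m : ℝ)
    rw [abs_sub_comm (c m : ℝ) (x m)] at this
    exact this
  linarith

/-- Disjoint boxes are separated in some coordinate. -/
theorem box_sep (c w c' w' : Fin 3 → ℚ) (hw : ∀ m, 0 ≤ w m) (hw' : ∀ m, 0 ≤ w' m)
    (h : Disjoint (box c w) (box c' w')) : ∃ m, w m + w' m < |c m - c' m| := by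
  by_contra hcon
  rw [not_exists] at hcon
  have hle : ∀ m, |c m - c' m| ≤ w m + w' m := fun m => not_lt.1 (hcon m)
  -- the point with coordinates `max (c - w) (c' - w')` lies in both boxes
  set x : Fin 3 → ℝ := fun m => max ((c m : ℝ) - w m) ((c' m : ℝ) - w' m) with hx
  have hleR : ∀ m, |(c m : ℝ) - (c' m : ℝ)| ≤ (w m : ℝ) + (w' m : ℝ) := by
    intro m; exact_mod_cast hle m
  have hwR : ∀ m, (0 : ℝ) ≤ (w m : ℝ) := fun m => by exact_mod_cast hw m
  have hwR' : ∀ m, (0 : ℝ) ≤ (w' m : ℝ) := fun m => by exact_mod_cast hw' m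
  have h1 : x ∈ box c w := by
    intro m
    have := abs_le.1 (hleR m)
    rw [abs_le]
    constructor
    · have : (c m : ℝ) - w m ≤ x m := le_max_left _ _
      linarith
    · have : x m ≤ (c m : ℝ) + w m := max_le (by linarith [hwR m]) (by linarith)
      linarith
  have h2 : x ∈ box c' w' := by
    intro m
    have := abs_le.1 (hleR m)
    rw [abs_le]
    constructor
    · have : (c' m : ℝ) - w' m ≤ x m := le_max_right _ _
      linarith
    · have : x m ≤ (c' m : ℝ) + w' m := max_le (by linarith) (by linarith [hwR' m])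
      linarith
  exact (Set.disjoint_left.1 h h1) h2

/-- A finite family of positive rationals has a positive lower bound. -/
theorem exists_pos_le_of_finset {ι : Type*} (s : Finset ι) (f : ι → ℚ) (hf : ∀ i ∈ s, 0 < f i) :
    ∃ g : ℚ, 0 < g ∧ ∀ i ∈ s, g ≤ f i := by
  classical
  induction s using Finset.induction_on with
  | empty => exact ⟨1, one_pos, by simp⟩
  | insert a s _ ih =>
    obtain ⟨g, hg, hgs⟩ := ih (fun i hi => hf i (Finset.mem_insert_of_mem hi))
    refine ⟨min g (f a), lt_min hg (hf a (Finset.mem_insert_self a s)), ?_⟩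
    intro i hi
    rcases Finset.mem_insert.1 hi with rfl | hi
    · exact min_le_right _ _
    · exact (min_le_left _ _).trans (hgs i hi)

/-- A pairwise disjoint finite family of boxes has a uniform positive rational gap. -/
theorem exists_gap {n : ℕ} (c w : Fin n → Fin 3 → ℚ) (hw : ∀ i m, 0 < w i m)
    (hd : Pairwise fun i i' => Disjoint (box (c i) (w i)) (box (c i') (w i'))) :
    ∃ g : ℚ, 0 < g ∧ ∀ i i', i ≠ i' → ∃ m, w i m + w i' m + g ≤ |c i m - c i' m| := by
  classical
  have hsep : ∀ p : Fin n × Fin n, p.1 ≠ p.2 →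
      ∃ m, w p.1 m + w p.2 m < |c p.1 m - c p.2 m| := fun p hp =>
    box_sep _ _ _ _ (fun m => (hw p.1 m).le) (fun m => (hw p.2 m).le) (hd hp)
  let f : Fin n × Fin n → ℚ := fun p =>
    if hp : p.1 ≠ p.2 then
      |c p.1 (Classical.choose (hsep p hp)) - c p.2 (Classical.choose (hsep p hp))|
        - (w p.1 (Classical.choose (hsep p hp)) + w p.2 (Classical.choose (hsep p hp)))
    else 1
  have hfpos : ∀ p ∈ (Finset.univ : Finset (Fin n × Fin n)), 0 < f p := by
    intro p _
    by_cases hp : p.1 ≠ p.2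
    · simp only [f, dif_pos hp]
      have := Classical.choose_spec (hsep p hp)
      linarith
    · simp only [f, dif_neg hp]
      exact one_pos
  obtain ⟨g, hg, hgs⟩ := exists_pos_le_of_finset Finset.univ f hfpos
  refine ⟨g, hg, fun i i' hne => ?_⟩
  have hp : ((i, i') : Fin n × Fin n).1 ≠ ((i, i') : Fin n × Fin n).2 := hne
  refine ⟨Classical.choose (hsep (i, i') hp), ?_⟩
  have h1 := hgs (i, i') (Finset.mem_univ _)
  simp only [f, dif_pos hp] at h1
  linarith

/-- The box with maximal top: every other box is separated from it in coordinate `0` or `1`,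
or lies strictly below it. -/
theorem sep_of_top_le {n : ℕ} (c w : Fin n → Fin 3 → ℚ) (hw : ∀ i m, 0 < w i m) (g : ℚ)
    (hg : 0 < g) (hgap : ∀ i i', i ≠ i' → ∃ m, w i m + w i' m + g ≤ |c i m - c i' m|)
    (i i' : Fin n) (hne : i ≠ i') (htop : c i' 2 + w i' 2 ≤ c i 2 + w i 2) :
    (w i 0 + w i' 0 + g ≤ |c i 0 - c i' 0|) ∨ (w i 1 + w i' 1 + g ≤ |c i 1 - c i' 1|) ∨
      (c i' 2 + w i' 2 + g ≤ c i 2 - w i 2) := by
  obtain ⟨m, hm⟩ := hgap i i' hne
  fin_cases m
  · exact Or.inl hm
  · exact Or.inr (Or.inl hm)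
  · refine Or.inr (Or.inr ?_)
    have hm' : w i 2 + w i' 2 + g ≤ |c i 2 - c i' 2| := hm
    rcases le_abs.1 hm' with h | h
    · linarith
    · exfalso
      have := hw i' 2
      have := hw i 2
      linarith

/-- Both the source and the target family can be enlarged simultaneously (the targets by the
affine images of the enlarged sources) keeping pairwise disjointness. -/
theorem exists_enlarge (n : ℕ) (a b h k : Fin n → Fin 3 → ℚ) (hh : ∀ i j, 0 < h i j)
    (hk : ∀ i j, 0 < k i j)
    (ha : Pairwise fun i i' => Disjoint (box (a i) (h i)) (box (a i') (h i')))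
    (hb : Pairwise fun i i' => Disjoint (box (b i) (k i)) (box (b i') (k i'))) :
    ∃ ε : ℚ, 0 < ε ∧
      (Pairwise fun i i' => Disjoint (box (a i) (fun j => h i j + ε))
        (box (a i') (fun j => h i' j + ε))) ∧
      (Pairwise fun i i' => Disjoint (box (b i) (fun j => k i j * (h i j + ε) / h i j))
        (box (b i') (fun j => k i' j * (h i' j + ε) / h i' j))) := by
  classical
  obtain ⟨ga, hga, hgapa⟩ := exists_gap a h hh ha
  obtain ⟨gb, hgb, hgapb⟩ := exists_gap b k hk hb
  -- a bound for all ratios k/h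
  set S : ℚ := 1 + ∑ p : Fin n × Fin 3, k p.1 p.2 / h p.1 p.2 with hS
  have hratio_nonneg : ∀ p : Fin n × Fin 3, 0 ≤ k p.1 p.2 / h p.1 p.2 := fun p =>
    (div_pos (hk _ _) (hh _ _)).le
  have hSpos : 0 < S := by
    have : 0 ≤ ∑ p : Fin n × Fin 3, k p.1 p.2 / h p.1 p.2 :=
      Finset.sum_nonneg fun p _ => hratio_nonneg p
    linarith
  have hratio_le : ∀ i m, k i m / h i m ≤ S := by
    intro i m
    have := Finset.single_le_sum (f := fun p : Fin n × Fin 3 => k p.1 p.2 / h p.1 p.2)
      (fun p _ => hratio_nonneg p) (Finset.mem_univ (i, m))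
    simp only at this
    linarith
  set ε : ℚ := min (ga / 3) (gb / (3 * S)) with hε
  have hεpos : 0 < ε := lt_min (by positivity) (by positivity)
  have hε1 : ε ≤ ga / 3 := min_le_left _ _
  have hε2 : ε ≤ gb / (3 * S) := min_le_right _ _
  have hε2' : ε * S ≤ gb / 3 := by
    have := mul_le_mul_of_nonneg_right hε2 hSpos.le
    have e : gb / (3 * S) * S = gb / 3 := by field_simp
    linarith
  refine ⟨ε, hεpos, ?_, ?_⟩
  · intro i i' hne
    apply box_disjoint_of_sep
    obtain ⟨m, hm⟩ := hgapa i i' hne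
    exact ⟨m, by linarith⟩
  · intro i i' hne
    apply box_disjoint_of_sep
    obtain ⟨m, hm⟩ := hgapb i i' hne
    refine ⟨m, ?_⟩
    have e1 : k i m * (h i m + ε) / h i m = k i m + ε * (k i m / h i m) := by
      have := (hh i m).ne'
      field_simp
    have e2 : k i' m * (h i' m + ε) / h i' m = k i' m + ε * (k i' m / h i' m) := by
      have := (hh i' m).ne'
      field_simp
    rw [e1, e2]
    have b1 : ε * (k i m / h i m) ≤ ε * S := mul_le_mul_of_nonneg_left (hratio_le i m) hεpos.le
    have b2 : ε * (k i' m / h i' m) ≤ ε * S :=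
      mul_le_mul_of_nonneg_left (hratio_le i' m) hεpos.le
    linarith

end Crest.Agent.Helper28
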