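import Mathlib
import Crest.Prelude.Def_AsymptoticConvexity
import Crest.Prelude.Def_Diamond

/-!
# Diamond graphs do not embed with bounded distortion into spaces with a good max-midpoint modulus
(helper28, module S0166-DIAMOND of the row-125 team build)
-/

set_option autoImplicit false

namespace Crest.Agent.Helper28

open Crest.AnalysisR

/-! ### Graph kit -/

/-- old vertex of `D (k+1)` -/
def dinl {k : ℕ} (u : DiamondVertex k) : DiamondVertex (k + 1) := Sum.inl u

/-- middle vertex of `D (k+1)` -/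
def dinr {k : ℕ} (e : DiamondEdge k) (i : ℕ) : DiamondVertex (k + 1) := Sum.inr (e, i)

/-- half edge of `D (k+1)` -/
def dedge {k : ℕ} (e : DiamondEdge k) (i : ℕ) (b : Bool) : DiamondEdge (k + 1) := (e, i, b)

theorem src_dedge_false {k : ℕ} (e : DiamondEdge k) (i : ℕ) :
    diamondSrc (k + 1) (dedge e i false) = dinl (diamondSrc k e) := rfl

theorem tgt_dedge_false {k : ℕ} (e : DiamondEdge k) (i : ℕ) :
    diamondTgt (k + 1) (dedge e i false) = dinr e i := rfl

theorem src_dedge_true {k : ℕ} (e : DiamondEdge k) (i : ℕ) :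
    diamondSrc (k + 1) (dedge e i true) = dinr e i := rfl

theorem tgt_dedge_true {k : ℕ} (e : DiamondEdge k) (i : ℕ) :
    diamondTgt (k + 1) (dedge e i true) = dinl (diamondTgt k e) := rfl

theorem dinl_ne_dinr {k : ℕ} (u : DiamondVertex k) (e : DiamondEdge k) (i : ℕ) :
    dinl u ≠ dinr e i := fun h => Sum.inl_ne_inr h

theorem dinr_inj {k : ℕ} {e e' : DiamondEdge k} {i j : ℕ} (h : dinr e i = dinr e' j) :
    e = e' ∧ i = j := by
  have h' : (e, i) = (e', j) := Sum.inr_injective h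
  exact ⟨(Prod.mk.inj h').1, (Prod.mk.inj h').2⟩

theorem dvertex_cases {k : ℕ} (x : DiamondVertex (k + 1)) :
    (∃ u, x = dinl u) ∨ (∃ e i, x = dinr e i) := by
  have h : ∀ y : DiamondVertex k ⊕ (DiamondEdge k × ℕ),
      (∃ u, y = Sum.inl u) ∨ (∃ e i, y = Sum.inr (e, i)) := by
    rintro (u | ⟨e, i⟩)
    · exact Or.inl ⟨u, rfl⟩
    · exact Or.inr ⟨e, i, rfl⟩
  exact h x

theorem dedge_cases {k : ℕ} (e' : DiamondEdge (k + 1)) : ∃ e i b, e' = dedge e i b := by
  have h : ∀ y : DiamondEdge k × ℕ × Bool, ∃ e i b, y = (e, i, b) := by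
    rintro ⟨e, i, b⟩
    exact ⟨e, i, b, rfl⟩
  exact h e'

theorem diamondSrc_ne_tgt : ∀ (k : ℕ) (e : DiamondEdge k), diamondSrc k e ≠ diamondTgt k e
  | 0, _ => by
    show (false : Bool) ≠ true
    decide
  | k + 1, e' => by
    obtain ⟨e, i, b, rfl⟩ := dedge_cases e'
    cases b
    · rw [src_dedge_false, tgt_dedge_false]
      exact dinl_ne_dinr _ _ _
    · rw [src_dedge_true, tgt_dedge_true]
      exact (dinl_ne_dinr _ _ _).symm

theorem diamond_adj_edge (k : ℕ) (e : DiamondEdge k) :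
    (diamondGraph k).Adj (diamondSrc k e) (diamondTgt k e) := by
  unfold diamondGraph
  rw [SimpleGraph.fromRel_adj]
  exact ⟨diamondSrc_ne_tgt k e, Or.inl ⟨e, rfl, rfl⟩⟩

theorem diamond_adj_iff (k : ℕ) (u v : DiamondVertex k) :
    (diamondGraph k).Adj u v ↔
      ∃ e : DiamondEdge k, (diamondSrc k e = u ∧ diamondTgt k e = v) ∨
        (diamondSrc k e = v ∧ diamondTgt k e = u) := by
  unfold diamondGraph
  rw [SimpleGraph.fromRel_adj]
  constructor
  · rintro ⟨_, ⟨e, h1, h2⟩ | ⟨e, h1, h2⟩⟩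
    · exact ⟨e, Or.inl ⟨h1, h2⟩⟩
    · exact ⟨e, Or.inr ⟨h1, h2⟩⟩
  · rintro ⟨e, ⟨h1, h2⟩ | ⟨h1, h2⟩⟩
    · exact ⟨by rw [← h1, ← h2]; exact diamondSrc_ne_tgt k e, Or.inl ⟨e, h1, h2⟩⟩
    · exact ⟨by rw [← h1, ← h2]; exact (diamondSrc_ne_tgt k e).symm, Or.inr ⟨e, h1, h2⟩⟩

/-- first half-edge: `inl (src e) — inr (e, i)` -/
theorem diamond_adj_left (k : ℕ) (e : DiamondEdge k) (i : ℕ) :
    (diamondGraph (k + 1)).Adj (dinl (diamondSrc k e)) (dinr e i) := by
  have := diamond_adj_edge (k + 1) (dedge e i false)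
  rwa [src_dedge_false, tgt_dedge_false] at this

/-- second half-edge: `inr (e, i) — inl (tgt e)` -/
theorem diamond_adj_right (k : ℕ) (e : DiamondEdge k) (i : ℕ) :
    (diamondGraph (k + 1)).Adj (dinr e i) (dinl (diamondTgt k e)) := by
  have := diamond_adj_edge (k + 1) (dedge e i true)
  rwa [src_dedge_true, tgt_dedge_true] at this

theorem diamond_reachable_inl (k : ℕ) {u v : DiamondVertex k}
    (h : (diamondGraph k).Reachable u v) :
    (diamondGraph (k + 1)).Reachable (dinl u) (dinl v) := by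
  obtain ⟨p⟩ := h
  induction p with
  | nil => exact SimpleGraph.Reachable.refl _
  | cons hadj _ ih =>
    refine SimpleGraph.Reachable.trans ?_ ih
    obtain ⟨e, ⟨h1, h2⟩ | ⟨h1, h2⟩⟩ := (diamond_adj_iff k _ _).1 hadj
    · rw [← h1, ← h2]
      exact (diamond_adj_left k e 0).reachable.trans (diamond_adj_right k e 0).reachable
    · rw [← h1, ← h2]
      exact ((diamond_adj_left k e 0).reachable.trans (diamond_adj_right k e 0).reachable).symm

theorem diamond_connected : ∀ k : ℕ, (diamondGraph k).Connected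
  | 0 => by
    rw [SimpleGraph.connected_iff]
    refine ⟨?_, ⟨diamondSrc 0 ()⟩⟩
    have h : (diamondGraph 0).Adj (diamondSrc 0 ()) (diamondTgt 0 ()) := diamond_adj_edge 0 ()
    have hall : ∀ u : Bool, u = false ∨ u = true := by decide
    intro u v
    rcases hall u with rfl | rfl <;> rcases hall v with rfl | rfl
    · exact SimpleGraph.Reachable.refl _
    · exact h.reachable
    · exact h.reachable.symm
    · exact SimpleGraph.Reachable.refl _
  | k + 1 => by
    have ih := diamond_connected k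
    rw [SimpleGraph.connected_iff] at ih ⊢
    obtain ⟨hpre, ⟨w⟩⟩ := ih
    refine ⟨?_, ⟨dinl w⟩⟩
    -- every vertex is reachable from `inl w`
    have key : ∀ x : DiamondVertex (k + 1), (diamondGraph (k + 1)).Reachable (dinl w) x := by
      intro x
      rcases dvertex_cases x with ⟨u, rfl⟩ | ⟨e, i, rfl⟩
      · exact diamond_reachable_inl k (hpre w u)
      · exact (diamond_reachable_inl k (hpre w (diamondSrc k e))).trans
          (diamond_adj_left k e i).reachable
    intro x y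
    exact (key x).symm.trans (key y)

theorem diamondDist_edge (k : ℕ) (e : DiamondEdge k) :
    diamondDist k (diamondSrc k e) (diamondTgt k e) = 1 :=
  SimpleGraph.dist_eq_one_iff_adj.2 (diamond_adj_edge k e)

theorem diamond_not_adj_dinr (k : ℕ) (e e' : DiamondEdge k) (i j : ℕ) :
    ¬ (diamondGraph (k + 1)).Adj (dinr e i) (dinr e' j) := by
  rw [diamond_adj_iff]
  rintro ⟨e₀, h⟩
  obtain ⟨e₁, i₁, b, rfl⟩ := dedge_cases e₀
  cases b
  · rcases h with ⟨h1, _⟩ | ⟨h1, _⟩
    · rw [src_dedge_false] at h1; exact dinl_ne_dinr _ _ _ h1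
    · rw [src_dedge_false] at h1; exact dinl_ne_dinr _ _ _ h1
  · rcases h with ⟨_, h2⟩ | ⟨_, h2⟩
    · rw [tgt_dedge_true] at h2; exact dinl_ne_dinr _ _ _ h2
    · rw [tgt_dedge_true] at h2; exact dinl_ne_dinr _ _ _ h2

/-- two distinct middle vertices of the same edge are at distance at least `2`. -/
theorem diamondDist_mid (k : ℕ) (e : DiamondEdge k) {i j : ℕ} (hij : i ≠ j) :
    2 ≤ diamondDist (k + 1) (dinr e i) (dinr e j) := by
  unfold diamondDist
  have hconn := diamond_connected (k + 1)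
  have h0 : (diamondGraph (k + 1)).dist (dinr e i) (dinr e j) ≠ 0 := by
    rw [Ne, hconn.dist_eq_zero_iff]
    intro h
    exact hij (dinr_inj h).2
  have h1 : (diamondGraph (k + 1)).dist (dinr e i) (dinr e j) ≠ 1 := by
    rw [Ne, SimpleGraph.dist_eq_one_iff_adj]
    exact diamond_not_adj_dinr k _ _ _ _
  omega

/-- A function that changes by at most one along edges changes by at most the distance. -/
theorem abs_sub_le_dist_of_adj {V : Type} (G : SimpleGraph V) (hG : G.Connected) (h : V → ℤ)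
    (hh : ∀ x y, G.Adj x y → |h x - h y| ≤ 1) (x y : V) : |h x - h y| ≤ (G.dist x y : ℤ) := by
  obtain ⟨p, hp⟩ := hG.exists_walk_length_eq_dist x y
  rw [← hp]
  clear hp
  induction p with
  | nil => simp
  | cons hadj p ih =>
    rename_i u v w
    have h1 := hh u v hadj
    have h2 : |h u - h w| ≤ |h u - h v| + |h v - h w| := abs_sub_le _ _ _
    simp only [SimpleGraph.Walk.length_cons]
    push_cast
    linarith

/-- the potential used for `diamondDist_inl` -/
noncomputable def dpot (k : ℕ) (u : DiamondVertex k) : DiamondVertex (k + 1) → ℤ :=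
  fun x => Sum.elim (fun w => 2 * (diamondDist k u w : ℤ))
    (fun p => (diamondDist k u (diamondSrc k p.1) : ℤ) + diamondDist k u (diamondTgt k p.1)) x

theorem dpot_dinl (k : ℕ) (u w : DiamondVertex k) :
    dpot k u (dinl w) = 2 * (diamondDist k u w : ℤ) := rfl

theorem dpot_dinr (k : ℕ) (u : DiamondVertex k) (e : DiamondEdge k) (i : ℕ) :
    dpot k u (dinr e i)
      = (diamondDist k u (diamondSrc k e) : ℤ) + diamondDist k u (diamondTgt k e) := rfl

/-- distances between old vertices at least double. -/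
theorem diamondDist_inl (k : ℕ) (u v : DiamondVertex k) :
    2 * diamondDist k u v ≤ diamondDist (k + 1) (dinl u) (dinl v) := by
  have hk := diamond_connected k
  have hk1 := diamond_connected (k + 1)
  have hedge : ∀ e : DiamondEdge k,
      |(diamondDist k u (diamondSrc k e) : ℤ) - diamondDist k u (diamondTgt k e)| ≤ 1 := by
    intro e
    have h1 : diamondDist k u (diamondTgt k e) ≤ diamondDist k u (diamondSrc k e) + 1 := by
      have := hk.dist_triangle (u := u) (v := diamondSrc k e) (w := diamondTgt k e)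
      have h' := diamondDist_edge k e
      unfold diamondDist at h' ⊢
      omega
    have h2 : diamondDist k u (diamondSrc k e) ≤ diamondDist k u (diamondTgt k e) + 1 := by
      have := hk.dist_triangle (u := u) (v := diamondTgt k e) (w := diamondSrc k e)
      have h' := diamondDist_edge k e
      unfold diamondDist at h' ⊢
      rw [SimpleGraph.dist_comm] at h'
      omega
    rw [abs_le]
    constructor <;> omega
  have hh : ∀ x y, (diamondGraph (k + 1)).Adj x y → |dpot k u x - dpot k u y| ≤ 1 := by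
    intro x y hadj
    obtain ⟨e₀, hcase⟩ := (diamond_adj_iff (k + 1) x y).1 hadj
    obtain ⟨e, i, b, rfl⟩ := dedge_cases e₀
    have he := hedge e
    rw [abs_le] at he ⊢
    cases b
    · rw [src_dedge_false, tgt_dedge_false] at hcase
      rcases hcase with ⟨h1, h2⟩ | ⟨h1, h2⟩
      · subst h1 h2
        rw [dpot_dinl, dpot_dinr]
        constructor <;> linarith [he.1, he.2]
      · subst h1 h2
        rw [dpot_dinl, dpot_dinr]
        constructor <;> linarith [he.1, he.2]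
    · rw [src_dedge_true, tgt_dedge_true] at hcase
      rcases hcase with ⟨h1, h2⟩ | ⟨h1, h2⟩
      · subst h1 h2
        rw [dpot_dinl, dpot_dinr]
        constructor <;> linarith [he.1, he.2]
      · subst h1 h2
        rw [dpot_dinl, dpot_dinr]
        constructor <;> linarith [he.1, he.2]
  have key := abs_sub_le_dist_of_adj (diamondGraph (k + 1)) hk1 (dpot k u) hh (dinl v) (dinl u)
  have hu : dpot k u (dinl u) = 0 := by
    rw [dpot_dinl]
    unfold diamondDist
    simp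
  rw [hu, dpot_dinl, sub_zero] at key
  have key' := (le_abs_self _).trans key
  have e1 : (diamondGraph (k + 1)).dist (dinl v) (dinl u)
      = (diamondGraph (k + 1)).dist (dinl u) (dinl v) := SimpleGraph.dist_comm
  unfold diamondDist at key' ⊢
  rw [e1] at key'
  exact_mod_cast key'

/-! ### The fork lemma -/

section fork

variable {X : Type} [NormedAddCommGroup X] [NormedSpace ℝ X]

/-- The max-midpoint hypothesis in unbundled form. -/
def MaxMid (X : Type) [NormedAddCommGroup X] [NormedSpace ℝ X] : Prop :=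
  ∀ t : ℝ, 0 < t → ∀ x : X, ‖x‖ = 1 → ∀ η : ℝ, 0 < η →
    ∃ S : Submodule ℝ X, IsClosed (S : Set X) ∧ FiniteDimensional ℝ (X ⧸ S) ∧
      ∀ y ∈ S, ‖y‖ = 1 →
        Real.sqrt (1 + t ^ 2 / 4) - 1 - η ≤ max ‖x + t • y‖ ‖x - t • y‖ - 1

theorem max_norm_mono (x y : X) {t₀ T : ℝ} (ht₀ : 0 ≤ t₀) (hT : t₀ ≤ T) (hTpos : 0 < T) :
    max ‖x + t₀ • y‖ ‖x - t₀ • y‖ ≤ max ‖x + T • y‖ ‖x - T • y‖ := by
  set lam : ℝ := (1 + t₀ / T) / 2 with hlam
  set mu : ℝ := (1 - t₀ / T) / 2 with hmu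
  have hr0 : 0 ≤ t₀ / T := div_nonneg ht₀ hTpos.le
  have hr1 : t₀ / T ≤ 1 := (div_le_one hTpos).2 hT
  have hlam0 : 0 ≤ lam := by rw [hlam]; linarith
  have hmu0 : 0 ≤ mu := by rw [hmu]; linarith
  have hsum : lam + mu = 1 := by rw [hlam, hmu]; ring
  have hdiff : (lam - mu) * T = t₀ := by
    rw [hlam, hmu]; field_simp; ring
  have e1 : x + t₀ • y = lam • (x + T • y) + mu • (x - T • y) := by
    have : lam • (x + T • y) + mu • (x - T • y) = (lam + mu) • x + ((lam - mu) * T) • y := by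
      module
    rw [this, hsum, hdiff, one_smul]
  have e2 : x - t₀ • y = mu • (x + T • y) + lam • (x - T • y) := by
    have : mu • (x + T • y) + lam • (x - T • y) = (lam + mu) • x - ((lam - mu) * T) • y := by
      module
    rw [this, hsum, hdiff, one_smul]
  set M := max ‖x + T • y‖ ‖x - T • y‖ with hM
  have hA : ‖x + T • y‖ ≤ M := le_max_left _ _
  have hB : ‖x - T • y‖ ≤ M := le_max_right _ _
  apply max_le
  · rw [e1]
    calc ‖lam • (x + T • y) + mu • (x - T • y)‖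
        ≤ ‖lam • (x + T • y)‖ + ‖mu • (x - T • y)‖ := norm_add_le _ _
      _ = lam * ‖x + T • y‖ + mu * ‖x - T • y‖ := by
          rw [norm_smul, norm_smul, Real.norm_of_nonneg hlam0, Real.norm_of_nonneg hmu0]
      _ ≤ lam * M + mu * M :=
          add_le_add (mul_le_mul_of_nonneg_left hA hlam0) (mul_le_mul_of_nonneg_left hB hmu0)
      _ = M := by rw [← add_mul, hsum, one_mul]
  · rw [e2]
    calc ‖mu • (x + T • y) + lam • (x - T • y)‖
        ≤ ‖mu • (x + T • y)‖ + ‖lam • (x - T • y)‖ := norm_add_le _ _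
      _ = mu * ‖x + T • y‖ + lam * ‖x - T • y‖ := by
          rw [norm_smul, norm_smul, Real.norm_of_nonneg hlam0, Real.norm_of_nonneg hmu0]
      _ ≤ mu * M + lam * M :=
          add_le_add (mul_le_mul_of_nonneg_left hA hmu0) (mul_le_mul_of_nonneg_left hB hlam0)
      _ = M := by rw [← add_mul, add_comm, hsum, one_mul]

/-- Pigeonhole modulo a closed subspace of finite codimension. -/
theorem exists_near_mod (S : Submodule ℝ X) (hS : IsClosed (S : Set X))
    (hfin : FiniteDimensional ℝ (X ⧸ S)) (z : ℕ → X) (R : ℝ) (hz : ∀ i, ‖z i‖ ≤ R)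
    {ε : ℝ} (hε : 0 < ε) : ∃ i j, i ≠ j ∧ ∃ s ∈ S, ‖z i - z j - s‖ < ε := by
  have := hS
  have := hfin
  have : ProperSpace (X ⧸ S) := FiniteDimensional.proper_real (X ⧸ S)
  have hmem : ∀ n, (Submodule.Quotient.mk (z n) : X ⧸ S) ∈ Metric.closedBall (0 : X ⧸ S) R := by
    intro n
    rw [mem_closedBall_zero_iff]
    exact (Submodule.Quotient.norm_mk_le S (z n)).trans (hz n)
  obtain ⟨a, -, φ, hφ, hlim⟩ := (isCompact_closedBall (0 : X ⧸ S) R).tendsto_subseq hmem
  have hc : CauchySeq ((fun n => (Submodule.Quotient.mk (z n) : X ⧸ S)) ∘ φ) :=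
    hlim.cauchySeq
  rw [Metric.cauchySeq_iff] at hc
  obtain ⟨N, hN⟩ := hc (ε / 2) (by positivity)
  have hd := hN N le_rfl (N + 1) (Nat.le_succ N)
  refine ⟨φ N, φ (N + 1), (hφ (Nat.lt_succ_self N)).ne, ?_⟩
  rw [dist_eq_norm] at hd
  simp only [Function.comp] at hd
  rw [← Submodule.Quotient.mk_sub] at hd
  obtain ⟨m, hm1, hm2⟩ := Submodule.Quotient.norm_mk_lt
    (Submodule.Quotient.mk (z (φ N) - z (φ (N + 1))) : X ⧸ S) (show (0 : ℝ) < ε / 2 by positivity)
  refine ⟨z (φ N) - z (φ (N + 1)) - m, ?_, ?_⟩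
  · have := (Submodule.Quotient.eq S).1 hm1
    have h2 : z (φ N) - z (φ (N + 1)) - m = -(m - (z (φ N) - z (φ (N + 1)))) := by abel
    rw [h2]
    exact S.neg_mem this
  · have h2 : z (φ N) - z (φ (N + 1)) - (z (φ N) - z (φ (N + 1)) - m) = m := by abel
    rw [h2]
    linarith

/-- Core estimate: one application of the max-midpoint hypothesis to a bounded separated
sequence of "perturbations" `w i` of a nonzero centre `u`. -/
theorem maxmid_core (hM : MaxMid X) {u : X} (hu : u ≠ 0) (w : ℕ → X) {L σ ε η : ℝ}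
    (h1 : ∀ i, ‖u + w i‖ ≤ L) (h2 : ∀ i, ‖u - w i‖ ≤ L)
    (hσ : ∀ i j, i ≠ j → σ ≤ ‖w i - w j‖) (hε : 0 < ε) (hεσ : 2 * ε < σ) (hη : 0 < η) :
    Real.sqrt (1 + ((σ / 2 - ε) / ‖u‖) ^ 2 / 4) - η ≤ (L + ε) / ‖u‖ := by
  have hr0 : 0 < ‖u‖ := norm_pos_iff.2 hu
  generalize hr : ‖u‖ = r at hr0 ⊢
  set t₀ := (σ / 2 - ε) / r with ht₀
  have ht₀pos : 0 < t₀ := div_pos (by linarith) hr0
  set x : X := r⁻¹ • u with hx
  have hx1 : ‖x‖ = 1 := by
    rw [hx, norm_smul, norm_inv, Real.norm_of_nonneg hr0.le, hr]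
    exact inv_mul_cancel₀ hr0.ne'
  obtain ⟨S, hS, hfin, hSy⟩ := hM t₀ ht₀pos x hx1 η hη
  have hwb : ∀ i, ‖w i‖ ≤ L + r := by
    intro i
    have : w i = (u + w i) - u := by abel
    rw [this]
    calc ‖u + w i - u‖ ≤ ‖u + w i‖ + ‖u‖ := norm_sub_le _ _
      _ ≤ L + r := by linarith [h1 i]
  obtain ⟨i, j, hij, s, hs, hclose⟩ :=
    exists_near_mod S hS hfin w (L + r) hwb (ε := 2 * ε) (by linarith)
  set y₀ : X := (1 / 2 : ℝ) • s with hy₀
  set v : X := (1 / 2 : ℝ) • (w i - w j) with hv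
  have hy₀S : y₀ ∈ S := S.smul_mem _ hs
  have hhalf : ‖(1 / 2 : ℝ)‖ = 1 / 2 := Real.norm_of_nonneg (by norm_num)
  have hvy : ‖v - y₀‖ < ε := by
    have : v - y₀ = (1 / 2 : ℝ) • (w i - w j - s) := by rw [hv, hy₀]; module
    rw [this, norm_smul, hhalf]
    linarith
  have hvσ : σ / 2 ≤ ‖v‖ := by
    rw [hv, norm_smul, hhalf]
    linarith [hσ i j hij]
  have hy₀norm : σ / 2 - ε < ‖y₀‖ := by
    have : ‖v‖ ≤ ‖y₀‖ + ‖v - y₀‖ := by
      have h' : v = y₀ + (v - y₀) := by abel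
      calc ‖v‖ = ‖y₀ + (v - y₀)‖ := by rw [← h']
        _ ≤ _ := norm_add_le _ _
    linarith
  have hy₀pos : 0 < ‖y₀‖ := by linarith
  have huv1 : ‖u + v‖ ≤ L := by
    have : u + v = (1 / 2 : ℝ) • (u + w i) + (1 / 2 : ℝ) • (u - w j) := by rw [hv]; module
    rw [this]
    calc _ ≤ ‖(1 / 2 : ℝ) • (u + w i)‖ + ‖(1 / 2 : ℝ) • (u - w j)‖ := norm_add_le _ _
      _ = 1 / 2 * ‖u + w i‖ + 1 / 2 * ‖u - w j‖ := by
          rw [norm_smul, norm_smul, hhalf]
      _ ≤ L := by linarith [h1 i, h2 j]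
  have huv2 : ‖u - v‖ ≤ L := by
    have : u - v = (1 / 2 : ℝ) • (u - w i) + (1 / 2 : ℝ) • (u + w j) := by rw [hv]; module
    rw [this]
    calc _ ≤ ‖(1 / 2 : ℝ) • (u - w i)‖ + ‖(1 / 2 : ℝ) • (u + w j)‖ := norm_add_le _ _
      _ = 1 / 2 * ‖u - w i‖ + 1 / 2 * ‖u + w j‖ := by
          rw [norm_smul, norm_smul, hhalf]
      _ ≤ L := by linarith [h2 i, h1 j]
  have hup : ‖u + y₀‖ ≤ L + ε := by
    have : u + y₀ = (u + v) - (v - y₀) := by abel
    rw [this]
    calc _ ≤ ‖u + v‖ + ‖v - y₀‖ := norm_sub_le _ _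
      _ ≤ L + ε := by linarith
  have hum : ‖u - y₀‖ ≤ L + ε := by
    have : u - y₀ = (u - v) + (v - y₀) := by abel
    rw [this]
    calc _ ≤ ‖u - v‖ + ‖v - y₀‖ := norm_add_le _ _
      _ ≤ L + ε := by linarith
  set T := ‖y₀‖ / r with hT
  have hTpos : 0 < T := div_pos hy₀pos hr0
  have ht₀T : t₀ ≤ T := by
    rw [ht₀, hT]
    exact div_le_div_of_nonneg_right hy₀norm.le hr0.le
  set y : X := ‖y₀‖⁻¹ • y₀ with hy
  have hyS : y ∈ S := S.smul_mem _ hy₀S
  have hy1 : ‖y‖ = 1 := by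
    rw [hy, norm_smul, norm_inv, norm_norm]
    exact inv_mul_cancel₀ hy₀pos.ne'
  have hTy : T • y = r⁻¹ • y₀ := by
    rw [hy, hT, smul_smul]
    congr 1
    field_simp
  have e1 : x + T • y = r⁻¹ • (u + y₀) := by rw [hTy, hx, smul_add]
  have e2 : x - T • y = r⁻¹ • (u - y₀) := by rw [hTy, hx, smul_sub]
  have n1 : ‖x + T • y‖ ≤ (L + ε) / r := by
    rw [e1, norm_smul, norm_inv, Real.norm_of_nonneg hr0.le, inv_mul_eq_div]
    exact div_le_div_of_nonneg_right hup hr0.le
  have n2 : ‖x - T • y‖ ≤ (L + ε) / r := by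
    rw [e2, norm_smul, norm_inv, Real.norm_of_nonneg hr0.le, inv_mul_eq_div]
    exact div_le_div_of_nonneg_right hum hr0.le
  have hmono := max_norm_mono x y ht₀pos.le ht₀T hTpos
  have hfin' := hSy y hyS hy1
  have hmax : max ‖x + T • y‖ ‖x - T • y‖ ≤ (L + ε) / r := max_le n1 n2
  linarith

/-- Limit form: `‖u‖² + σ²/16 ≤ L²`. -/
theorem maxmid_sq (hM : MaxMid X) (u : X) (w : ℕ → X) {L σ : ℝ} (hσ0 : 0 ≤ σ)
    (h1 : ∀ i, ‖u + w i‖ ≤ L) (h2 : ∀ i, ‖u - w i‖ ≤ L)
    (hσ : ∀ i j, i ≠ j → σ ≤ ‖w i - w j‖) : ‖u‖ ^ 2 + σ ^ 2 / 16 ≤ L ^ 2 := by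
  have hL0 : 0 ≤ L := (norm_nonneg _).trans (h1 0)
  have hhalf : ‖(1 / 2 : ℝ)‖ = 1 / 2 := Real.norm_of_nonneg (by norm_num)
  have huL : ‖u‖ ≤ L := by
    have : u = (1 / 2 : ℝ) • (u + w 0) + (1 / 2 : ℝ) • (u - w 0) := by module
    calc ‖u‖ = ‖(1 / 2 : ℝ) • (u + w 0) + (1 / 2 : ℝ) • (u - w 0)‖ := by rw [← this]
      _ ≤ ‖(1 / 2 : ℝ) • (u + w 0)‖ + ‖(1 / 2 : ℝ) • (u - w 0)‖ := norm_add_le _ _
      _ = 1 / 2 * ‖u + w 0‖ + 1 / 2 * ‖u - w 0‖ := by
          rw [norm_smul, norm_smul, hhalf]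
      _ ≤ L := by linarith [h1 0, h2 0]
  by_cases hu : u = 0
  · subst hu
    have hw : ∀ i, ‖w i‖ ≤ L := by
      intro i
      have := h1 i
      rwa [zero_add] at this
    have hσL : σ ≤ 2 * L := by
      calc σ ≤ ‖w 0 - w 1‖ := hσ 0 1 (by norm_num)
        _ ≤ ‖w 0‖ + ‖w 1‖ := norm_sub_le _ _
        _ ≤ 2 * L := by linarith [hw 0, hw 1]
    rw [norm_zero]
    nlinarith
  · have hr0 : 0 < ‖u‖ := norm_pos_iff.2 hu
    rcases hσ0.eq_or_lt with hσz | hσpos
    · rw [← hσz]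
      nlinarith [norm_nonneg u]
    · have key : Real.sqrt (1 + ((σ / 2) / ‖u‖) ^ 2 / 4) ≤ L / ‖u‖ := by
        have hf : Filter.Tendsto
            (fun ε : ℝ => Real.sqrt (1 + ((σ / 2 - ε) / ‖u‖) ^ 2 / 4) - ε)
            (nhdsWithin 0 (Set.Ioi 0))
            (nhds (Real.sqrt (1 + ((σ / 2 - 0) / ‖u‖) ^ 2 / 4) - 0)) := by
          apply tendsto_nhdsWithin_of_tendsto_nhds
          apply Continuous.tendsto
            (f := fun ε : ℝ => Real.sqrt (1 + ((σ / 2 - ε) / ‖u‖) ^ 2 / 4) - ε)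
          fun_prop
        have hg : Filter.Tendsto (fun ε : ℝ => (L + ε) / ‖u‖)
            (nhdsWithin 0 (Set.Ioi 0)) (nhds ((L + 0) / ‖u‖)) := by
          apply tendsto_nhdsWithin_of_tendsto_nhds
          apply Continuous.tendsto (f := fun ε : ℝ => (L + ε) / ‖u‖)
          fun_prop
        have hev : ∀ᶠ ε in nhdsWithin (0 : ℝ) (Set.Ioi 0),
            Real.sqrt (1 + ((σ / 2 - ε) / ‖u‖) ^ 2 / 4) - ε ≤ (L + ε) / ‖u‖ := by
          have hmem : Set.Ioo (0 : ℝ) (σ / 2) ∈ nhdsWithin (0 : ℝ) (Set.Ioi 0) :=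
            Ioo_mem_nhdsGT (by linarith)
          filter_upwards [hmem] with ε hε
          exact maxmid_core hM hu w h1 h2 hσ hε.1 (by linarith [hε.2]) hε.1
        have := le_of_tendsto_of_tendsto hf hg hev
        simpa using this
      have h3 : 1 + ((σ / 2) / ‖u‖) ^ 2 / 4 ≤ (L / ‖u‖) ^ 2 := by
        have hnn : 0 ≤ 1 + ((σ / 2) / ‖u‖) ^ 2 / 4 := by positivity
        calc 1 + ((σ / 2) / ‖u‖) ^ 2 / 4
            = Real.sqrt (1 + ((σ / 2) / ‖u‖) ^ 2 / 4) ^ 2 := (Real.sq_sqrt hnn).symm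
          _ ≤ (L / ‖u‖) ^ 2 := pow_le_pow_left₀ (Real.sqrt_nonneg _) key 2
      have h4 : (1 + ((σ / 2) / ‖u‖) ^ 2 / 4) * ‖u‖ ^ 2 ≤ (L / ‖u‖) ^ 2 * ‖u‖ ^ 2 :=
        mul_le_mul_of_nonneg_right h3 (by positivity)
      have e1 : (1 + ((σ / 2) / ‖u‖) ^ 2 / 4) * ‖u‖ ^ 2 = ‖u‖ ^ 2 + σ ^ 2 / 16 := by
        field_simp
        ring
      have e2 : (L / ‖u‖) ^ 2 * ‖u‖ ^ 2 = L ^ 2 := by
        field_simp
      rw [e1, e2] at h4
      exact h4

/-- The fork lemma: a point `a`, a point `b`, and infinitely many `σ`-separated "midpoints"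
`z i` within `L` of both force `‖a - b‖² ≤ 4 L² - σ²/4`. -/
theorem fork_sq (hM : MaxMid X) (a b : X) (z : ℕ → X) {L σ : ℝ} (hσ0 : 0 ≤ σ)
    (h1 : ∀ i, ‖a - z i‖ ≤ L) (h2 : ∀ i, ‖z i - b‖ ≤ L)
    (hσ : ∀ i j, i ≠ j → σ ≤ ‖z i - z j‖) : ‖a - b‖ ^ 2 ≤ 4 * L ^ 2 - σ ^ 2 / 4 := by
  have key := maxmid_sq hM ((1 / 2 : ℝ) • (b - a)) (fun i => z i - (1 / 2 : ℝ) • (a + b)) hσ0
    (fun i => by
      have : (1 / 2 : ℝ) • (b - a) + (z i - (1 / 2 : ℝ) • (a + b)) = -(a - z i) := by module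
      rw [this, norm_neg]
      exact h1 i)
    (fun i => by
      have : (1 / 2 : ℝ) • (b - a) - (z i - (1 / 2 : ℝ) • (a + b)) = -(z i - b) := by module
      rw [this, norm_neg]
      exact h2 i)
    (fun i j hij => by
      have : (z i - (1 / 2 : ℝ) • (a + b)) - (z j - (1 / 2 : ℝ) • (a + b)) = z i - z j := by
        abel
      rw [this]
      exact hσ i j hij)
  have e : ‖(1 / 2 : ℝ) • (b - a)‖ = ‖a - b‖ / 2 := by
    rw [norm_smul, Real.norm_of_nonneg (by norm_num), norm_sub_rev]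
    ring
  rw [e] at key
  have e2 : (‖a - b‖ / 2) ^ 2 = ‖a - b‖ ^ 2 / 4 := by ring
  rw [e2] at key
  linarith

/-- The induction on the diamond level. -/
theorem diamond_induction (hM : MaxMid X) :
    ∀ (k : ℕ) (f : DiamondVertex k → X) (s D : ℝ), 0 < s →
      (∀ u v, s * (diamondDist k u v : ℝ) ≤ ‖f u - f v‖) →
      (∀ e, ‖f (diamondSrc k e) - f (diamondTgt k e)‖ ≤ D * s) → 1 + (k : ℝ) / 4 ≤ D ^ 2
  | 0, f, s, D, hs, hlow, hedge => by
    have h1 := hlow (diamondSrc 0 ()) (diamondTgt 0 ())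
    rw [diamondDist_edge 0 ()] at h1
    have h2 := hedge ()
    have hD : 1 ≤ D := by
      by_contra hcon
      push Not at hcon
      have h3 : D * s < 1 * s := mul_lt_mul_of_pos_right hcon hs
      rw [Nat.cast_one, mul_one] at h1
      linarith
    rw [Nat.cast_zero, zero_div, add_zero]
    nlinarith
  | k + 1, f, s, D, hs, hlow, hedge => by
    have fork : ∀ e : DiamondEdge k,
        ‖f (dinl (diamondSrc k e)) - f (dinl (diamondTgt k e))‖ ^ 2
          ≤ (4 * D ^ 2 - 1) * s ^ 2 := by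
      intro e
      have h := fork_sq hM (f (dinl (diamondSrc k e))) (f (dinl (diamondTgt k e)))
        (fun i => f (dinr e i)) (L := D * s) (σ := 2 * s) (by linarith)
        (fun i => by
          have := hedge (dedge e i false)
          rwa [src_dedge_false, tgt_dedge_false] at this)
        (fun i => by
          have := hedge (dedge e i true)
          rwa [src_dedge_true, tgt_dedge_true] at this)
        (fun i j hij => by
          have h := hlow (dinr e i) (dinr e j)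
          have h2 : (2 : ℝ) ≤ (diamondDist (k + 1) (dinr e i) (dinr e j) : ℝ) := by
            exact_mod_cast diamondDist_mid k e hij
          calc 2 * s = s * 2 := by ring
            _ ≤ s * (diamondDist (k + 1) (dinr e i) (dinr e j) : ℝ) :=
                mul_le_mul_of_nonneg_left h2 hs.le
            _ ≤ _ := h)
      calc _ ≤ 4 * (D * s) ^ 2 - (2 * s) ^ 2 / 4 := h
        _ = (4 * D ^ 2 - 1) * s ^ 2 := by ring
    have ih := diamond_induction hM k (fun u => f (dinl u)) (2 * s)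
      (Real.sqrt (D ^ 2 - 1 / 4)) (by linarith)
      (fun u v => by
        have h := hlow (dinl u) (dinl v)
        have h2 : (2 : ℝ) * (diamondDist k u v : ℝ)
            ≤ (diamondDist (k + 1) (dinl u) (dinl v) : ℝ) := by
          exact_mod_cast diamondDist_inl k u v
        calc 2 * s * (diamondDist k u v : ℝ) = s * (2 * (diamondDist k u v : ℝ)) := by ring
          _ ≤ s * (diamondDist (k + 1) (dinl u) (dinl v) : ℝ) :=
              mul_le_mul_of_nonneg_left h2 hs.le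
          _ ≤ _ := h)
      (fun e => by
        have h := fork e
        have hs2 : 0 < s ^ 2 := by positivity
        have hnn : 0 ≤ 4 * D ^ 2 - 1 := by
          by_contra hcon
          push Not at hcon
          have h3 : (4 * D ^ 2 - 1) * s ^ 2 < 0 := mul_neg_of_neg_of_pos hcon hs2
          have h4 := sq_nonneg ‖f (dinl (diamondSrc k e)) - f (dinl (diamondTgt k e))‖
          linarith
        have e1 : Real.sqrt (D ^ 2 - 1 / 4) * (2 * s)
            = Real.sqrt ((4 * D ^ 2 - 1) * s ^ 2) := by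
          have h5 : (4 * D ^ 2 - 1) * s ^ 2 = (D ^ 2 - 1 / 4) * (2 * s) ^ 2 := by ring
          rw [h5, Real.sqrt_mul (by linarith), Real.sqrt_sq (by linarith)]
        rw [e1]
        exact Real.le_sqrt_of_sq_le h)
    by_cases hneg : D ^ 2 - 1 / 4 < 0
    · rw [Real.sqrt_eq_zero_of_nonpos hneg.le] at ih
      have h6 : (0 : ℝ) ≤ (k : ℝ) := Nat.cast_nonneg k
      norm_num at ih
      linarith
    · push Not at hneg
      rw [Real.sq_sqrt hneg] at ih
      push_cast
      linarith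

/-- Unbundled form of the diamond distortion bound. -/
theorem diamond_distortion_aux (hM : MaxMid X) (k : ℕ) (f : DiamondVertex k → X) (D s : ℝ)
    (hs : 0 < s)
    (h : ∀ u v : DiamondVertex k, s * (diamondDist k u v : ℝ) ≤ ‖f u - f v‖ ∧
      ‖f u - f v‖ ≤ D * s * (diamondDist k u v : ℝ)) :
    1 + (k : ℝ) / 4 ≤ D ^ 2 :=
  diamond_induction hM k f s D hs (fun u v => (h u v).1) (fun e => by
    have := (h (diamondSrc k e) (diamondTgt k e)).2
    rwa [diamondDist_edge, Nat.cast_one, mul_one] at this)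

end fork

/-- **Module S0166-DIAMOND.**  If the max-midpoint modulus of (the given norm of) `E` is at
least `√(1 + t²/4) - 1` for all `t > 0`, then every embedding of the countably branching
diamond `D k` into `E` has distortion `D` with `D² ≥ 1 + k/4`. -/
theorem diamond_distortion (E : Crest.AnalysisR.RealBanach)
    (hmax : ∀ t : ℝ, 0 < t →
      E.MaxMidpointModulusGE E.norm t (Real.sqrt (1 + t ^ 2 / 4) - 1)) :
    ∀ (k : ℕ) (f : Crest.AnalysisR.DiamondVertex k → E.X) (D : ℝ),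
      E.HasDistortionLE k f D → 1 + (k : ℝ) / 4 ≤ D ^ 2 := by
  intro k f D hdist
  let _ := E.normed
  let _ := E.space
  obtain ⟨s, hs, h⟩ := hdist
  refine diamond_distortion_aux (X := E.X) ?_ k f D s hs h
  intro t ht x hx η hη
  obtain ⟨F, ⟨S, hSF, hcl, hfin⟩, hF⟩ := hmax t ht x hx η hη
  refine ⟨S, by rw [hSF]; exact hcl, hfin, ?_⟩
  intro y hy hy1
  exact hF y (by rw [← hSF]; exact hy) hy1

end Crest.Agent.Helper28
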