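import Mathlib
import Crest.Agent.Helper7.TreeDefs
import Crest.Agent.Helper28.SumMod

/-!
# (A2) density of ancestor-closed finitely supported vectors (helper28, backup of TREE-AMUC (A2))

`dense_vec`: every element of `Tree.space Extra` is within `ε` of some `vec Extra T₀ c` with `T₀`
finite and closed under suffixes (ancestors).  `sum_midpoint_of_A1`: S0166-SUMMOD with only the
block inequality (A1) as hypothesis.
-/

set_option autoImplicit false

namespace Crest.Agent.Helper28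

open Crest.Agent.Helper7 Crest.Agent.Helper7.Tree

/-- **(A2)**: ancestor-closed finitely supported vectors are dense in `space Extra`. -/
theorem dense_vec (Extra : (List ℕ → ℝ) → Prop) (x : space Extra) {ε : ℝ} (hε : 0 < ε) :
    ∃ (T₀ : Finset (List ℕ)) (c : List ℕ → ℝ),
      (∀ s ∈ T₀, ∀ u, u <:+ s → u ∈ T₀) ∧ ‖x - vec Extra T₀ c‖ < ε := by
  classical
  have hx : (x : lp (fun _ : Test Extra => ℝ) ⊤)
      ∈ closure ((Submodule.span ℝ (Set.range (coordVec Extra)) : Submodule ℝ _) : Set _) := x.2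
  obtain ⟨z, hz, hxz⟩ := Metric.mem_closure_iff.1 hx ε hε
  obtain ⟨c, rfl⟩ := Finsupp.mem_span_range_iff_exists_finsupp.1 hz
  let T₀ : Finset (List ℕ) := c.support.biUnion (fun s => s.tails.toFinset)
  have hsub : c.support ⊆ T₀ := by
    intro s hs
    simp only [T₀, Finset.mem_biUnion, List.mem_toFinset, List.mem_tails]
    exact ⟨s, hs, List.suffix_refl s⟩
  refine ⟨T₀, c, ?_, ?_⟩
  · intro s hs u hu
    simp only [T₀, Finset.mem_biUnion, List.mem_toFinset, List.mem_tails] at hs ⊢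
    obtain ⟨s', hs', hss'⟩ := hs
    exact ⟨s', hs', hu.trans hss'⟩
  · have hvec : ((vec Extra T₀ c : space Extra) : lp (fun _ : Test Extra => ℝ) ⊤)
        = c.sum fun i a => a • coordVec Extra i := by
      unfold vec
      rw [Submodule.coe_sum, Finsupp.sum]
      symm
      refine Finset.sum_subset hsub ?_
      intro s _ hs
      rw [Finsupp.notMem_support_iff.1 hs, zero_smul]
    have hnorm : ‖x - vec Extra T₀ c‖
        = ‖(x : lp (fun _ : Test Extra => ℝ) ⊤)
            - ((vec Extra T₀ c : space Extra) : lp (fun _ : Test Extra => ℝ) ⊤)‖ := rfl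
    rw [hnorm, hvec, ← dist_eq_norm]
    exact hxz

/-- **S0166-SUMMOD** with only the block inequality (A1) as hypothesis. -/
theorem sum_midpoint_of_A1
    (hA1 : ∀ (n : ℕ) (T₀ : Finset (List ℕ)), (∀ s ∈ T₀, ∀ u, u <:+ s → u ∈ T₀) →
      ∀ (c : List ℕ → ℝ) (y : Block n),
      (∀ s ∈ T₀, ∀ hs : IsT (ExtraH n) (Pi.single s 1),
        evalT (ExtraH n) ⟨Pi.single s 1, hs⟩ y = 0) →
      Real.sqrt (4 * ‖vec (ExtraH n) T₀ c‖ ^ 2 + ‖y‖ ^ 2)
        ≤ ‖vec (ExtraH n) T₀ c + y‖ + ‖vec (ExtraH n) T₀ c - y‖)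
    {t η : ℝ} (ht : 0 < t) (x : SumSpace) (hx : ‖x‖ = 1) (hη : 0 < η) :
    ∃ F : Set SumSpace, AUC.IsCof F ∧ ∀ y ∈ F, ‖y‖ = 1 →
      Real.sqrt (4 + t ^ 2) - η ≤ ‖x + t • y‖ + ‖x - t • y‖ :=
  sum_midpoint_of hA1 (fun n x _ hε => dense_vec (ExtraH n) x hε) ht x hx hη

end Crest.Agent.Helper28
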