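import Mathlib
import Crest.Agent.Helper7.TreeDefs
import Crest.Agent.Helper7.AUCGame
import Crest.Agent.Helper8.TreeBasic
import Crest.Agent.Helper2.TreeGame
import Crest.Agent.Helper28.SumMod
import Crest.Agent.Helper28.TreeDense

/-!
# (A1) the block inequality for tree-potential spaces (helper28; independent backup of TREE-AMUC)

`block_ineq`: for an ancestor-closed finite vertex set `T₀`, a vector `x = vec Extra T₀ c`
supported on `T₀` and a vector `y` killed by the live singleton tests of `T₀`,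
`√(4‖x‖² + ‖y‖²) ≤ ‖x + y‖ + ‖x - y‖`.

The heart is the test-splitting construction: from tests `f`, `g` and parameters `α, θ ∈ [0,1]`
with `α² + (θ(1+α)/2)² ≤ 1` one builds tests `h₊, h₋` equal to `α f` on `T₀` and with
`h₊ - h₋ = θ g` off `T₀`.
-/

set_option autoImplicit false

namespace Crest.Agent.Helper28

open Crest.AnalysisR Crest.AnalysisR.TreePotential
open Crest.Agent.Helper7 Crest.Agent.Helper7.Tree

/-! ### Coefficient families with a prescribed potential -/

/-- The coefficient family whose potential is `φ`. -/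
def coef (φ : List ℕ → ℝ) : List ℕ → ℝ
  | [] => φ []
  | a :: v => φ (a :: v) - φ v

theorem pathPotential_coef (φ : List ℕ → ℝ) (s : List ℕ) : pathPotential (coef φ) s = φ s := by
  induction s with
  | nil => rfl
  | cons a v ih =>
    rw [pathPotential, ih, coef]
    ring

/-- Potential of the restriction of `f` to `T`. -/
def potIn (T : Finset (List ℕ)) (f : List ℕ → ℝ) : List ℕ → ℝ :=
  pathPotential (fun u => if u ∈ T then f u else 0)

/-- Potential of the restriction of `g` to the complement of `T`. -/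
def potOut (T : Finset (List ℕ)) (g : List ℕ → ℝ) : List ℕ → ℝ :=
  pathPotential (fun u => if u ∈ T then 0 else g u)

theorem potIn_nil (T : Finset (List ℕ)) (f : List ℕ → ℝ) :
    potIn T f [] = if [] ∈ T then f [] else 0 := rfl

theorem potIn_cons (T : Finset (List ℕ)) (f : List ℕ → ℝ) (a : ℕ) (v : List ℕ) :
    potIn T f (a :: v) = potIn T f v + if a :: v ∈ T then f (a :: v) else 0 := rfl

theorem potOut_nil (T : Finset (List ℕ)) (g : List ℕ → ℝ) :
    potOut T g [] = if [] ∈ T then 0 else g [] := rfl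

theorem potOut_cons (T : Finset (List ℕ)) (g : List ℕ → ℝ) (a : ℕ) (v : List ℕ) :
    potOut T g (a :: v) = potOut T g v + if a :: v ∈ T then 0 else g (a :: v) := rfl

theorem potIn_add_potOut (T : Finset (List ℕ)) (g : List ℕ → ℝ) (s : List ℕ) :
    potIn T g s + potOut T g s = pathPotential g s := by
  induction s with
  | nil =>
    rw [potIn_nil, potOut_nil, pathPotential]
    split_ifs <;> simp
  | cons a v ih =>
    rw [potIn_cons, potOut_cons, pathPotential, ← ih]
    split_ifs <;> ring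

section closed

variable {T : Finset (List ℕ)} (hT : ∀ s ∈ T, ∀ u, u <:+ s → u ∈ T)
include hT

theorem potIn_of_mem (f : List ℕ → ℝ) : ∀ s, s ∈ T → potIn T f s = pathPotential f s
  | [], h => by rw [potIn_nil, if_pos h, pathPotential]
  | a :: v, h => by
    have hv : v ∈ T := hT _ h v (List.suffix_cons a v)
    rw [potIn_cons, if_pos h, potIn_of_mem f v hv, pathPotential]

theorem potOut_of_mem (g : List ℕ → ℝ) (s : List ℕ) (h : s ∈ T) : potOut T g s = 0 := by
  have h1 := potIn_add_potOut T g s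
  rw [potIn_of_mem hT g s h] at h1
  linarith

theorem abs_potIn_le (f : List ℕ → ℝ) (hf : ∀ s, |pathPotential f s| ≤ 1) :
    ∀ s, |potIn T f s| ≤ 1
  | [] => by
    by_cases h : [] ∈ T
    · rw [potIn_of_mem hT f [] h]
      exact hf []
    · rw [potIn_nil, if_neg h, abs_zero]
      norm_num
  | a :: v => by
    by_cases h : a :: v ∈ T
    · rw [potIn_of_mem hT f _ h]
      exact hf _
    · rw [potIn_cons, if_neg h, add_zero]
      exact abs_potIn_le f hf v

theorem abs_potOut_le (g : List ℕ → ℝ) (hg : ∀ s, |pathPotential g s| ≤ 1) (s : List ℕ) :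
    |potOut T g s| ≤ 2 := by
  have h1 := potIn_add_potOut T g s
  have h2 := abs_potIn_le hT g hg s
  have h3 := hg s
  have h4 : potOut T g s = pathPotential g s - potIn T g s := by linarith
  rw [h4]
  calc |pathPotential g s - potIn T g s| ≤ |pathPotential g s| + |potIn T g s| := abs_sub _ _
    _ ≤ 2 := by linarith

end closed

/-! ### The kernel -/

/-- The splitting kernel: potential `α p` on `T`, moved by the outside potential `r`. -/
noncomputable def kern (α θ p r : ℝ) : ℝ :=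
  α * p + θ * ((1 - α * p) / 2 * max r 0 + (1 + α * p) / 2 * min r 0)

theorem kern_zero (α θ p : ℝ) : kern α θ p 0 = α * p := by
  simp [kern]

theorem abs_mul_le_of {α p : ℝ} (hα0 : 0 ≤ α) (hp : |p| ≤ 1) : |α * p| ≤ α := by
  rw [abs_mul, abs_of_nonneg hα0]
  nlinarith [abs_nonneg p]

theorem abs_kern_le {α θ p r : ℝ} (hα0 : 0 ≤ α) (hα1 : α ≤ 1) (hθ0 : 0 ≤ θ) (hθ1 : θ ≤ 1)
    (hp : |p| ≤ 1) (hr : |r| ≤ 2) : |kern α θ p r| ≤ 1 := by
  have hq := abs_mul_le_of hα0 hp
  rw [abs_le] at hr hq ⊢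
  unfold kern
  generalize α * p = q at hq
  rcases le_total 0 r with h | h
  · rw [max_eq_left h, min_eq_right h]
    have h1 : 0 ≤ θ * r := mul_nonneg hθ0 h
    have h2 : θ * r ≤ 2 := by nlinarith
    have h3 : 0 ≤ (1 - q) * (θ * r) := mul_nonneg (by linarith [hq.2]) h1
    have h4 : (1 - q) * (θ * r) ≤ (1 - q) * 2 := mul_le_mul_of_nonneg_left h2 (by linarith [hq.2])
    have e : q + θ * ((1 - q) / 2 * r + (1 + q) / 2 * 0) = q + (1 - q) * (θ * r) / 2 := by ring
    rw [e]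
    constructor <;> linarith [hq.1, hq.2]
  · rw [max_eq_right h, min_eq_left h]
    have h1 : 0 ≤ θ * (-r) := mul_nonneg hθ0 (by linarith)
    have h2 : θ * (-r) ≤ 2 := by nlinarith
    have h3 : 0 ≤ (1 + q) * (θ * (-r)) := mul_nonneg (by linarith [hq.1]) h1
    have h4 : (1 + q) * (θ * (-r)) ≤ (1 + q) * 2 :=
      mul_le_mul_of_nonneg_left h2 (by linarith [hq.1])
    have e : q + θ * ((1 - q) / 2 * 0 + (1 + q) / 2 * r) = q - (1 + q) * (θ * (-r)) / 2 := by ring
    rw [e]
    constructor <;> linarith [hq.1, hq.2]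

/-- One-sided Lipschitz estimate of the kernel in the outside potential. -/
theorem kern_sub_le {α θ p r r' : ℝ} (hα0 : 0 ≤ α) (hα1 : α ≤ 1) (hθ0 : 0 ≤ θ) (hp : |p| ≤ 1)
    (h : r' ≤ r) :
    0 ≤ kern α θ p r - kern α θ p r' ∧
      kern α θ p r - kern α θ p r' ≤ θ * (1 + α) / 2 * (r - r') := by
  have hq := abs_mul_le_of hα0 hp
  rw [abs_le] at hq
  unfold kern
  generalize α * p = q at hq
  have ha : 0 ≤ max r 0 - max r' 0 := sub_nonneg.2 (max_le_max h le_rfl)
  have hb : 0 ≤ min r 0 - min r' 0 := sub_nonneg.2 (min_le_min h le_rfl)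
  have hab : (max r 0 - max r' 0) + (min r 0 - min r' 0) = r - r' := by
    have e1 := min_add_max r 0
    have e2 := min_add_max r' 0
    linarith
  have e : q + θ * ((1 - q) / 2 * max r 0 + (1 + q) / 2 * min r 0)
      - (q + θ * ((1 - q) / 2 * max r' 0 + (1 + q) / 2 * min r' 0))
      = θ * ((1 - q) / 2 * (max r 0 - max r' 0) + (1 + q) / 2 * (min r 0 - min r' 0)) := by ring
  rw [e, ← hab]
  generalize max r 0 - max r' 0 = a at ha
  generalize min r 0 - min r' 0 = b at hb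
  have h1 : 0 ≤ (1 - q) / 2 * a := mul_nonneg (by linarith [hq.2]) ha
  have h2 : 0 ≤ (1 + q) / 2 * b := mul_nonneg (by linarith [hq.1]) hb
  have h3 : (1 - q) / 2 * a ≤ (1 + α) / 2 * a :=
    mul_le_mul_of_nonneg_right (by linarith [hq.1]) ha
  have h4 : (1 + q) / 2 * b ≤ (1 + α) / 2 * b :=
    mul_le_mul_of_nonneg_right (by linarith [hq.2]) hb
  constructor
  · exact mul_nonneg hθ0 (by linarith)
  · have h5 : θ * ((1 - q) / 2 * a + (1 + q) / 2 * b) ≤ θ * ((1 + α) / 2 * (a + b)) :=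
      mul_le_mul_of_nonneg_left (by linarith) hθ0
    have e3 : θ * (1 + α) / 2 * (a + b) = θ * ((1 + α) / 2 * (a + b)) := by ring
    rw [e3]
    exact h5

/-- Lipschitz estimate of the kernel in the outside potential. -/
theorem abs_kern_sub_le {α θ p r r' : ℝ} (hα0 : 0 ≤ α) (hα1 : α ≤ 1) (hθ0 : 0 ≤ θ)
    (hp : |p| ≤ 1) :
    |kern α θ p r - kern α θ p r'| ≤ θ * (1 + α) / 2 * |r - r'| := by
  rcases le_total r' r with h | h
  · obtain ⟨h1, h2⟩ := kern_sub_le hα0 hα1 hθ0 hp h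
    rw [abs_of_nonneg h1, abs_of_nonneg (sub_nonneg.2 h)]
    exact h2
  · obtain ⟨h1, h2⟩ := kern_sub_le hα0 hα1 hθ0 hp h
    rw [abs_sub_comm, abs_of_nonneg h1, abs_sub_comm, abs_of_nonneg (sub_nonneg.2 h)]
    exact h2

theorem kern_sub_neg (α θ p r : ℝ) : kern α θ p r - kern α θ p (-r) = θ * r := by
  unfold kern
  rcases le_total 0 r with h | h
  · rw [max_eq_left h, min_eq_right h, max_eq_right (by linarith : -r ≤ 0),
      min_eq_left (by linarith : -r ≤ 0)]
    ring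
  · rw [max_eq_right h, min_eq_left h, max_eq_left (by linarith : 0 ≤ -r),
      min_eq_right (by linarith : 0 ≤ -r)]
    ring

/-! ### The split families -/

/-- The potential of the split family with sign `σ`. -/
noncomputable def HP (α θ σ : ℝ) (T : Finset (List ℕ)) (f g : List ℕ → ℝ) (s : List ℕ) : ℝ :=
  kern α θ (potIn T f s) (σ * potOut T g s)

/-- The split family with sign `σ`. -/
noncomputable def hp (α θ σ : ℝ) (T : Finset (List ℕ)) (f g : List ℕ → ℝ) : List ℕ → ℝ :=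
  coef (HP α θ σ T f g)

theorem pathPotential_hp (α θ σ : ℝ) (T : Finset (List ℕ)) (f g : List ℕ → ℝ) (s : List ℕ) :
    pathPotential (hp α θ σ T f g) s = HP α θ σ T f g s :=
  pathPotential_coef _ s

theorem hp_nil (α θ σ : ℝ) (T : Finset (List ℕ)) (f g : List ℕ → ℝ) :
    hp α θ σ T f g [] = HP α θ σ T f g [] := rfl

theorem hp_cons (α θ σ : ℝ) (T : Finset (List ℕ)) (f g : List ℕ → ℝ) (a : ℕ) (v : List ℕ) :
    hp α θ σ T f g (a :: v) = HP α θ σ T f g (a :: v) - HP α θ σ T f g v := rfl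

section closed2

variable {T : Finset (List ℕ)} (hT : ∀ s ∈ T, ∀ u, u <:+ s → u ∈ T)
include hT

theorem abs_pot_hp_le {α θ σ : ℝ} (hα0 : 0 ≤ α) (hα1 : α ≤ 1) (hθ0 : 0 ≤ θ) (hθ1 : θ ≤ 1)
    (hσ : |σ| = 1) {f g : List ℕ → ℝ} (hf : ∀ s, |pathPotential f s| ≤ 1)
    (hg : ∀ s, |pathPotential g s| ≤ 1) (s : List ℕ) :
    |pathPotential (hp α θ σ T f g) s| ≤ 1 := by
  rw [pathPotential_hp]
  refine abs_kern_le hα0 hα1 hθ0 hθ1 (abs_potIn_le hT f hf s) ?_
  rw [abs_mul, hσ, one_mul]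
  exact abs_potOut_le hT g hg s

theorem hp_of_mem (α θ σ : ℝ) (f g : List ℕ → ℝ) :
    ∀ s, s ∈ T → hp α θ σ T f g s = α * f s
  | [], h => by
    rw [hp_nil, HP, potIn_of_mem hT f [] h, potOut_of_mem hT g [] h, mul_zero, kern_zero,
      pathPotential]
  | a :: v, h => by
    have hv : v ∈ T := hT _ h v (List.suffix_cons a v)
    rw [hp_cons, HP, HP, potIn_of_mem hT f _ h, potOut_of_mem hT g _ h, potIn_of_mem hT f v hv,
      potOut_of_mem hT g v hv, mul_zero, kern_zero, kern_zero, pathPotential]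
    ring

theorem abs_hp_le_of_notMem {α θ σ : ℝ} (hα0 : 0 ≤ α) (hα1 : α ≤ 1) (hθ0 : 0 ≤ θ)
    (hσ : |σ| = 1) {f : List ℕ → ℝ} (hf : ∀ s, |pathPotential f s| ≤ 1) (g : List ℕ → ℝ) :
    ∀ s, s ∉ T → |hp α θ σ T f g s| ≤ θ * (1 + α) / 2 * |g s|
  | [], h => by
    rw [hp_nil, HP, potIn_nil, if_neg h, potOut_nil, if_neg h]
    have h1 := abs_kern_sub_le (r := σ * g []) (r' := 0) hα0 hα1 hθ0
      (show |(0 : ℝ)| ≤ 1 by simp)
    rw [kern_zero, mul_zero, sub_zero, sub_zero, abs_mul, hσ, one_mul] at h1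
    exact h1
  | a :: v, h => by
    rw [hp_cons, HP, HP, potIn_cons, if_neg h, add_zero, potOut_cons, if_neg h]
    have h1 := abs_kern_sub_le (r := σ * (potOut T g v + g (a :: v))) (r' := σ * potOut T g v)
      hα0 hα1 hθ0 (abs_potIn_le hT f hf v)
    have e : σ * (potOut T g v + g (a :: v)) - σ * potOut T g v = σ * g (a :: v) := by ring
    rw [e, abs_mul, hσ, one_mul] at h1
    exact h1

omit hT in
theorem hp_sub_hp_neg (α θ : ℝ) (f g : List ℕ → ℝ) :
    ∀ s, s ∉ T → hp α θ 1 T f g s - hp α θ (-1) T f g s = θ * g s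
  | [], h => by
    rw [hp_nil, hp_nil, HP, HP, potIn_nil, if_neg h, potOut_nil, if_neg h, one_mul, neg_one_mul]
    exact kern_sub_neg α θ 0 (g [])
  | a :: v, h => by
    rw [hp_cons, hp_cons, HP, HP, HP, HP, potIn_cons, if_neg h, add_zero, potOut_cons, if_neg h,
      one_mul, one_mul, neg_one_mul, neg_one_mul]
    have h1 := kern_sub_neg α θ (potIn T f v) (potOut T g v + g (a :: v))
    have h2 := kern_sub_neg α θ (potIn T f v) (potOut T g v)
    linarith

end closed2

/-! ### Tests -/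

section tests

variable {Extra : (List ℕ → ℝ) → Prop}

/-- **Test splitting.** -/
theorem split_tests (hE : PotClass Extra) (T₀ : Finset (List ℕ))
    (hT₀ : ∀ s ∈ T₀, ∀ u, u <:+ s → u ∈ T₀) (f g : Test Extra) {α θ : ℝ}
    (hα0 : 0 ≤ α) (hα1 : α ≤ 1) (hθ0 : 0 ≤ θ) (hθ1 : θ ≤ 1)
    (hmix : α ^ 2 + (θ * (1 + α) / 2) ^ 2 ≤ 1) :
    ∃ hpT hmT : Test Extra, (∀ s ∈ T₀, hpT.1 s = α * f.1 s ∧ hmT.1 s = α * f.1 s) ∧
      (∀ s, s ∉ T₀ → hpT.1 s - hmT.1 s = θ * g.1 s) := by
  have hκ0 : 0 ≤ θ * (1 + α) / 2 := by positivity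
  have key : ∀ σ : ℝ, |σ| = 1 → IsT Extra (hp α θ σ T₀ f.1 g.1) := by
    intro σ hσ
    refine ⟨abs_pot_hp_le hT₀ hα0 hα1 hθ0 hθ1 hσ f.2.1 g.2.1, ?_⟩
    refine hE.mix f.1 g.1 _ (↑T₀ : Set (List ℕ)) α (θ * (1 + α) / 2) hα0 hκ0 hmix f.2.2 g.2.2 ?_ ?_
    · intro s hs
      rw [hp_of_mem hT₀ α θ σ f.1 g.1 s (Finset.mem_coe.1 hs), abs_mul, abs_of_nonneg hα0]
    · intro s hs
      exact abs_hp_le_of_notMem hT₀ hα0 hα1 hθ0 hσ f.2.1 g.1 s (fun h => hs (Finset.mem_coe.2 h))
  refine ⟨⟨_, key 1 (by simp)⟩, ⟨_, key (-1) (by simp)⟩, ?_, ?_⟩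
  · intro s hs
    exact ⟨hp_of_mem hT₀ α θ 1 f.1 g.1 s hs, hp_of_mem hT₀ α θ (-1) f.1 g.1 s hs⟩
  · intro s hs
    exact hp_sub_hp_neg α θ f.1 g.1 s hs

end tests

/-! ### Norm-level consequences -/

section norms

set_option synthInstance.maxHeartbeats 400000

variable {Extra : (List ℕ → ℝ) → Prop}

theorem evalT_le_norm (f : Test Extra) (z : space Extra) : evalT Extra f z ≤ ‖z‖ := by
  have h : |evalT Extra f z| ≤ ‖z‖ := abs_evalT_le Extra f z
  exact (le_abs_self _).trans h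

/-- A continuous functional vanishing on all coordinate vectors vanishes. -/
theorem clm_eq_zero_of_e (Λ : space Extra →L[ℝ] ℝ) (h : ∀ u, Λ (e Extra u) = 0)
    (z : space Extra) : Λ z = 0 := by
  by_contra hne
  have hpos : 0 < |Λ z| := abs_pos.2 hne
  have hden : 0 < ‖Λ‖ + 1 := by positivity
  obtain ⟨T, c, -, hzc⟩ := dense_vec Extra z (ε := |Λ z| / (‖Λ‖ + 1)) (div_pos hpos hden)
  have hv : Λ (vec Extra T c) = 0 := by
    unfold vec
    rw [map_sum]
    exact Finset.sum_eq_zero fun s _ => by rw [map_smul, h, smul_zero]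
  have h2 : |Λ z| ≤ ‖Λ‖ * ‖z - vec Extra T c‖ := by
    have := Λ.le_opNorm (z - vec Extra T c)
    rwa [Real.norm_eq_abs, map_sub, hv, sub_zero] at this
  have hΛ0 : 0 ≤ ‖Λ‖ := Λ.opNorm_nonneg
  have h3 : ‖Λ‖ * ‖z - vec Extra T c‖ ≤ ‖Λ‖ * (|Λ z| / (‖Λ‖ + 1)) :=
    mul_le_mul_of_nonneg_left hzc.le hΛ0
  have h4 : ‖Λ‖ * (|Λ z| / (‖Λ‖ + 1)) < |Λ z| := by
    rw [← mul_div_assoc, div_lt_iff₀ hden]
    nlinarith
  linarith

/-- The coordinate vector of a dead vertex is zero. -/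
theorem e_eq_zero_of_dead {s : List ℕ} (h : ∀ f, Extra f → f s = 0) : e Extra s = 0 := by
  apply Subtype.ext
  apply lp.ext
  funext f
  exact h f.1 f.2.2

theorem pathPotential_neg (f : List ℕ → ℝ) (s : List ℕ) :
    pathPotential (fun u => -f u) s = -pathPotential f s := by
  induction s with
  | nil => rfl
  | cons a v ih =>
    rw [pathPotential, ih, pathPotential]
    ring

theorem pathPotential_zero (s : List ℕ) : pathPotential (0 : List ℕ → ℝ) s = 0 := by
  induction s with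
  | nil => rfl
  | cons a v ih =>
    rw [pathPotential, ih]
    simp

/-- The negative of a test. -/
def negTest (hE : PotClass Extra) (f : Test Extra) : Test Extra :=
  ⟨fun u => -f.1 u, fun s => by rw [pathPotential_neg, abs_neg]; exact f.2.1 s,
    hE.mix f.1 f.1 _ Set.univ 1 0 zero_le_one le_rfl (by norm_num) f.2.2 f.2.2
      (fun s _ => by rw [abs_neg, one_mul]) (fun s hs => absurd (Set.mem_univ s) hs)⟩

/-- The zero test. -/
def zeroTest (hE : PotClass Extra) : Test Extra :=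
  ⟨0, fun s => by rw [pathPotential_zero]; simp, hE.zero⟩

theorem evalT_negTest (hE : PotClass Extra) (f : Test Extra) (z : space Extra) :
    evalT Extra (negTest hE f) z = - evalT Extra f z := by
  have h := clm_eq_zero_of_e (evalT Extra (negTest hE f) + evalT Extra f) (fun u => by
    rw [add_apply, evalT_e, evalT_e]
    show -f.1 u + f.1 u = 0
    ring) z
  rw [add_apply] at h
  linarith

/-- Tests norm the space from one side. -/
theorem exists_norming (hE : PotClass Extra) (z : space Extra) {δ : ℝ} (hδ : 0 < δ) :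
    ∃ f : Test Extra, ‖z‖ - δ ≤ evalT Extra f z := by
  by_contra hcon
  push Not at hcon
  have h0 := hcon (zeroTest hE)
  have h0' := hcon (negTest hE (zeroTest hE))
  rw [evalT_negTest] at h0'
  have hM : 0 ≤ ‖z‖ - δ := by linarith
  have h1 := Crest.Agent.Helper2.TreeGame.norm_le_of_evalT z hM (fun f => by
    rw [abs_le]
    have h1 := hcon f
    have h2 := hcon (negTest hE f)
    rw [evalT_negTest] at h2
    constructor <;> linarith)
  linarith

/-- The coordinate functional of the vertex `s` (zero when `s` is not live). -/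
noncomputable def liveCoord (Extra : (List ℕ → ℝ) → Prop) (s : List ℕ) : space Extra →L[ℝ] ℝ :=
  haveI := Classical.propDecidable (IsT Extra (Pi.single s 1))
  if hs : IsT Extra (Pi.single s 1) then evalT Extra ⟨Pi.single s 1, hs⟩ else 0

theorem liveCoord_of_live {s : List ℕ} (hs : IsT Extra (Pi.single s 1)) :
    liveCoord Extra s = evalT Extra ⟨Pi.single s 1, hs⟩ := by
  unfold liveCoord
  rw [dif_pos hs]

theorem liveCoord_of_not_live {s : List ℕ} (hs : ¬ IsT Extra (Pi.single s 1)) :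
    liveCoord Extra s = 0 := by
  unfold liveCoord
  rw [dif_neg hs]

theorem liveCoord_e (hE : PotClass Extra) (s u : List ℕ) :
    liveCoord Extra s (e Extra u) • e Extra s = if s = u then e Extra u else 0 := by
  by_cases hs : IsT Extra (Pi.single s 1)
  · have h1 : evalT Extra ⟨Pi.single s 1, hs⟩ (e Extra u)
        = (Pi.single s (1 : ℝ) : List ℕ → ℝ) u := rfl
    rw [liveCoord_of_live hs, h1]
    by_cases hsu : s = u
    · subst hsu
      rw [if_pos rfl, Pi.single_eq_same, one_smul]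
    · rw [if_neg hsu, Pi.single_eq_of_ne (Ne.symm hsu), zero_smul]
  · rw [liveCoord_of_not_live hs]
    have hdead : e Extra s = 0 := by
      rcases hE.live_or_dead s with h | h
      · exact absurd (Crest.Agent.Helper8.isT_single h) hs
      · exact e_eq_zero_of_dead h
    by_cases hsu : s = u
    · subst hsu
      rw [if_pos rfl, hdead, smul_zero]
    · rw [if_neg hsu, zero_apply, zero_smul]

/-- The projection removing the (live) `T₀`-coordinates. -/
noncomputable def projOff (Extra : (List ℕ → ℝ) → Prop) (T₀ : Finset (List ℕ)) :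
    space Extra →L[ℝ] space Extra :=
  ContinuousLinearMap.id ℝ _ - ∑ s ∈ T₀, (liveCoord Extra s).smulRight (e Extra s)

theorem projOff_apply (T₀ : Finset (List ℕ)) (z : space Extra) :
    projOff Extra T₀ z = z - ∑ s ∈ T₀, liveCoord Extra s z • e Extra s := by
  unfold projOff
  rw [sub_apply, sum_apply]
  rfl

theorem projOff_e (hE : PotClass Extra) (T₀ : Finset (List ℕ)) (u : List ℕ) :
    projOff Extra T₀ (e Extra u) = if u ∈ T₀ then 0 else e Extra u := by
  rw [projOff_apply, Finset.sum_congr rfl (fun s _ => liveCoord_e hE s u),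
    Finset.sum_ite_eq' T₀ u (fun _ => e Extra u)]
  split_ifs
  · rw [sub_self]
  · rw [sub_zero]

/-- The key identity: tests whose difference is `θ g` off `T₀` pair with a vector without live
`T₀`-coordinates as `θ g` does. -/
theorem evalT_sub_eq (hE : PotClass Extra) (T₀ : Finset (List ℕ)) (hpT hmT g : Test Extra)
    (θ : ℝ) (hout : ∀ s, s ∉ T₀ → hpT.1 s - hmT.1 s = θ * g.1 s) (y : space Extra)
    (hy : ∀ s ∈ T₀, ∀ hs : IsT Extra (Pi.single s 1),
      evalT Extra ⟨Pi.single s 1, hs⟩ y = 0) :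
    evalT Extra hpT y - evalT Extra hmT y = θ * evalT Extra g y := by
  have hP : projOff Extra T₀ y = y := by
    rw [projOff_apply]
    have h0 : ∑ s ∈ T₀, liveCoord Extra s y • e Extra s = 0 :=
      Finset.sum_eq_zero fun s hs => by
        by_cases hl : IsT Extra (Pi.single s 1)
        · rw [liveCoord_of_live hl, hy s hs hl, zero_smul]
        · rw [liveCoord_of_not_live hl, zero_apply, zero_smul]
    rw [h0, sub_zero]
  have hzero := clm_eq_zero_of_e
    ((evalT Extra hpT - evalT Extra hmT - θ • evalT Extra g).comp (projOff Extra T₀))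
    (fun u => by
      rw [ContinuousLinearMap.comp_apply, projOff_e hE]
      by_cases hu : u ∈ T₀
      · rw [if_pos hu, map_zero]
      · rw [if_neg hu]
        simp only [sub_apply, smul_apply, evalT_e,
          smul_eq_mul]
        linarith [hout u hu]) y
  rw [ContinuousLinearMap.comp_apply, hP] at hzero
  simp only [sub_apply, smul_apply, smul_eq_mul]
    at hzero
  linarith

/-- The pairing bound behind the block inequality. -/
theorem pair_bound (hE : PotClass Extra) (T₀ : Finset (List ℕ))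
    (hT₀ : ∀ s ∈ T₀, ∀ u, u <:+ s → u ∈ T₀) (c : List ℕ → ℝ) (y : space Extra)
    (hy : ∀ s ∈ T₀, ∀ hs : IsT Extra (Pi.single s 1),
      evalT Extra ⟨Pi.single s 1, hs⟩ y = 0)
    {α θ : ℝ} (hα0 : 0 ≤ α) (hα1 : α ≤ 1) (hθ0 : 0 ≤ θ) (hθ1 : θ ≤ 1)
    (hmix : α ^ 2 + (θ * (1 + α) / 2) ^ 2 ≤ 1) :
    2 * α * ‖vec Extra T₀ c‖ + θ * ‖y‖ ≤ ‖vec Extra T₀ c + y‖ + ‖vec Extra T₀ c - y‖ := by
  apply le_of_forall_pos_le_add
  intro δ hδ
  obtain ⟨f, hf⟩ := exists_norming hE (vec Extra T₀ c) (δ := δ / 3) (by positivity)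
  obtain ⟨g, hg⟩ := exists_norming hE y (δ := δ / 3) (by positivity)
  obtain ⟨hpT, hmT, hin, hout⟩ := split_tests hE T₀ hT₀ f g hα0 hα1 hθ0 hθ1 hmix
  have h1 : evalT Extra hpT (vec Extra T₀ c + y) ≤ ‖vec Extra T₀ c + y‖ := evalT_le_norm hpT _
  have h2 : evalT Extra hmT (vec Extra T₀ c - y) ≤ ‖vec Extra T₀ c - y‖ := evalT_le_norm hmT _
  have h3 : evalT Extra hpT (vec Extra T₀ c) = α * evalT Extra f (vec Extra T₀ c) := by
    rw [evalT_vec, evalT_vec, Finset.mul_sum]
    refine Finset.sum_congr rfl fun s hs => ?_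
    rw [(hin s hs).1]
    ring
  have h4 : evalT Extra hmT (vec Extra T₀ c) = α * evalT Extra f (vec Extra T₀ c) := by
    rw [evalT_vec, evalT_vec, Finset.mul_sum]
    refine Finset.sum_congr rfl fun s hs => ?_
    rw [(hin s hs).2]
    ring
  have h5 := evalT_sub_eq hE T₀ hpT hmT g θ hout y hy
  rw [map_add] at h1
  rw [map_sub] at h2
  have h6 : 2 * α * (‖vec Extra T₀ c‖ - δ / 3) ≤ 2 * α * evalT Extra f (vec Extra T₀ c) :=
    mul_le_mul_of_nonneg_left hf (by positivity)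
  have h7 : θ * (‖y‖ - δ / 3) ≤ θ * evalT Extra g y := mul_le_mul_of_nonneg_left hg hθ0
  have h8 : α * δ ≤ 1 * δ := mul_le_mul_of_nonneg_right hα1 hδ.le
  have h9 : θ * δ ≤ 1 * δ := mul_le_mul_of_nonneg_right hθ1 hδ.le
  linarith

/-- **(A1) The block inequality.** -/
theorem block_ineq (hE : PotClass Extra) (T₀ : Finset (List ℕ))
    (hT₀ : ∀ s ∈ T₀, ∀ u, u <:+ s → u ∈ T₀) (c : List ℕ → ℝ) (y : space Extra)
    (hy : ∀ s ∈ T₀, ∀ hs : IsT Extra (Pi.single s 1),
      evalT Extra ⟨Pi.single s 1, hs⟩ y = 0) :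
    Real.sqrt (4 * ‖vec Extra T₀ c‖ ^ 2 + ‖y‖ ^ 2)
      ≤ ‖vec Extra T₀ c + y‖ + ‖vec Extra T₀ c - y‖ := by
  have h2y : 2 * ‖y‖ ≤ ‖vec Extra T₀ c + y‖ + ‖vec Extra T₀ c - y‖ := by
    have e1 : (2 : ℝ) • y = (vec Extra T₀ c + y) - (vec Extra T₀ c - y) := by
      rw [two_smul]
      abel
    calc 2 * ‖y‖ = ‖(2 : ℝ) • y‖ := by
          rw [norm_smul, Real.norm_of_nonneg (by norm_num)]
      _ = ‖(vec Extra T₀ c + y) - (vec Extra T₀ c - y)‖ := by rw [e1]
      _ ≤ _ := norm_sub_le _ _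
  have key := fun (α θ : ℝ) => pair_bound hE T₀ hT₀ c y hy (α := α) (θ := θ)
  have hξ0 : 0 ≤ ‖vec Extra T₀ c‖ := norm_nonneg _
  have hυ0 : 0 ≤ ‖y‖ := norm_nonneg _
  generalize ‖vec Extra T₀ c + y‖ + ‖vec Extra T₀ c - y‖ = R at h2y key ⊢
  generalize ‖vec Extra T₀ c‖ = ξ at hξ0 key ⊢
  generalize ‖y‖ = υ at hυ0 h2y key ⊢
  have hS0 : 0 ≤ Real.sqrt (4 * ξ ^ 2 + υ ^ 2) := Real.sqrt_nonneg _
  have hS2 : Real.sqrt (4 * ξ ^ 2 + υ ^ 2) ^ 2 = 4 * ξ ^ 2 + υ ^ 2 :=
    Real.sq_sqrt (by positivity)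
  have hξS : 2 * ξ ≤ Real.sqrt (4 * ξ ^ 2 + υ ^ 2) := by
    apply Real.le_sqrt_of_sq_le
    nlinarith [sq_nonneg υ]
  generalize Real.sqrt (4 * ξ ^ 2 + υ ^ 2) = S at hS0 hS2 hξS ⊢
  rcases hS0.eq_or_lt with hS | hSpos
  · rw [← hS]
    linarith
  by_cases hcase : 2 * υ ≤ S + 2 * ξ
  · have hden : 0 < S + 2 * ξ := by linarith
    have hκ : 2 * υ / (S + 2 * ξ) * (1 + 2 * ξ / S) / 2 = υ / S := by
      field_simp
    have hmix : (2 * ξ / S) ^ 2 + (2 * υ / (S + 2 * ξ) * (1 + 2 * ξ / S) / 2) ^ 2 ≤ 1 := by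
      rw [hκ, div_pow, div_pow, ← add_div, div_le_one (by positivity)]
      nlinarith
    have h := key (2 * ξ / S) (2 * υ / (S + 2 * ξ)) (by positivity)
      ((div_le_one hSpos).2 hξS) (by positivity) ((div_le_one hden).2 hcase) hmix
    have e1 : 2 * υ / (S + 2 * ξ) * υ = 2 * (S - 2 * ξ) := by
      rw [div_mul_eq_mul_div, div_eq_iff hden.ne']
      nlinarith
    have e2 : 2 * (2 * ξ / S) * ξ = 4 * ξ ^ 2 / S := by ring
    have e3 : 4 * ξ ^ 2 / S + 2 * (S - 2 * ξ) - S = (S - 2 * ξ) ^ 2 / S := by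
      field_simp
      ring
    have e4 : 0 ≤ (S - 2 * ξ) ^ 2 / S := by positivity
    rw [e1, e2] at h
    linarith
  · push Not at hcase
    linarith

end norms

end Crest.Agent.Helper28
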