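import Mathlib
import Crest.Prelude.Def_AsymptoticConvexity
import Crest.Prelude.Def_TreePotentials
import Crest.Agent.Helper7.TreeDefs
import Crest.Agent.Helper7.AUCGame
import Crest.Agent.Helper8.TreeBasic
import Crest.Agent.Helper2.TreeGame
import Crest.Agent.Helper28.SumMod
import Crest.Agent.Helper28.TreeDense
import Crest.Agent.Helper28.TreeSplit

/-!
# Consequences of the block inequality (helper28; backup of TREE-AMUC (A3) and glue)

* `sum_midpoint`: **S0166-SUMMOD, unconditional** — the midpoint estimate in `Tree.SumSpace`.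
* `midpoint_single`: the one-space analogue of `lp_two_midpoint`.
* `midpoint_ge`: (A3), the midpoint estimate in `Tree.space Extra` for `PotClass Extra`.
* `modelBanach_midpoint`: the middle conjunct of S0168 in record form (for every `t > 0`).
* `s0168_statement`: the three conjuncts of S0168 assembled.
-/

set_option autoImplicit false

namespace Crest.Agent.Helper28

open Crest.AnalysisR Crest.AnalysisR.TreePotential
open Crest.Agent.Helper7 Crest.Agent.Helper7.Tree

/-- **S0166-SUMMOD** (unconditional): the midpoint estimate in the `ℓ²`-sum of the blocks. -/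
theorem sum_midpoint {t η : ℝ} (ht : 0 < t) (x : SumSpace) (hx : ‖x‖ = 1) (hη : 0 < η) :
    ∃ F : Set SumSpace, AUC.IsCof F ∧ ∀ y ∈ F, ‖y‖ = 1 →
      Real.sqrt (4 + t ^ 2) - η ≤ ‖x + t • y‖ + ‖x - t • y‖ :=
  sum_midpoint_of_A1 (fun n => block_ineq (Crest.Agent.Helper8.potClass_extraH n)) ht x hx hη

/-- One-space analogue of `lp_two_midpoint`. -/
theorem midpoint_single {V : Type*} [NormedAddCommGroup V] [NormedSpace ℝ V]
    (hblock : ∀ (x : V) (ε : ℝ), 0 < ε → ∃ (v : V) (G : Set V),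
      AUC.IsCof G ∧ ‖x - v‖ < ε ∧
        ∀ y ∈ G, Real.sqrt (4 * ‖v‖ ^ 2 + ‖y‖ ^ 2) ≤ ‖v + y‖ + ‖v - y‖)
    {t η : ℝ} (ht : 0 < t) (x : V) (hx : ‖x‖ = 1) (hη : 0 < η) :
    ∃ F : Set V, AUC.IsCof F ∧ ∀ y ∈ F, ‖y‖ = 1 →
      Real.sqrt (4 + t ^ 2) - η ≤ ‖x + t • y‖ + ‖x - t • y‖ := by
  obtain ⟨v, G, hG, hxv, hineq⟩ := hblock x (η / 4) (by positivity)
  refine ⟨G, hG, fun y hy hy1 => ?_⟩
  have h1 := hineq (t • y) (hG.smul_mem t hy)
  rw [norm_smul, Real.norm_of_nonneg ht.le, hy1, mul_one] at h1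
  have h2 := sqrt_lip 1 ‖v‖ t
  rw [one_pow, mul_one] at h2
  have h3 : |1 - ‖v‖| ≤ ‖x - v‖ := by
    rw [← hx]
    exact abs_norm_sub_norm_le _ _
  have h4 : ‖v + t • y‖ ≤ ‖x + t • y‖ + ‖x - v‖ := by
    have e : v + t • y = (x + t • y) - (x - v) := by abel
    rw [e]
    exact norm_sub_le _ _
  have h5 : ‖v - t • y‖ ≤ ‖x - t • y‖ + ‖x - v‖ := by
    have e : v - t • y = (x - t • y) - (x - v) := by abel
    rw [e]
    exact norm_sub_le _ _
  linarith

section tree

set_option synthInstance.maxHeartbeats 400000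

variable {Extra : (List ℕ → ℝ) → Prop}

/-- **(A3)**: the midpoint estimate in a tree-potential space. -/
theorem midpoint_ge (hE : PotClass Extra) {t η : ℝ} (ht : 0 < t) (x : space Extra)
    (hx : ‖x‖ = 1) (hη : 0 < η) :
    ∃ F : Set (space Extra), AUC.IsCof F ∧ ∀ y ∈ F, ‖y‖ = 1 →
      Real.sqrt (1 + t ^ 2 / 4) - 1 - η ≤ (‖x + t • y‖ + ‖x - t • y‖) / 2 - 1 := by
  obtain ⟨F, hF, h⟩ := midpoint_single
    (fun x ε hε => block_hyp (block_ineq hE) (fun x ε hε => dense_vec Extra x hε) x ε hε)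
    ht x hx (η := 2 * η) (by positivity)
  refine ⟨F, hF, fun y hy hy1 => ?_⟩
  have h1 := h y hy hy1
  have e : Real.sqrt (4 + t ^ 2) = 2 * Real.sqrt (1 + t ^ 2 / 4) := by
    have h4 : 4 + t ^ 2 = 2 ^ 2 * (1 + t ^ 2 / 4) := by ring
    rw [h4, Real.sqrt_mul (by norm_num), Real.sqrt_sq (by norm_num)]
  rw [e] at h1
  linarith

end tree

/-- The middle conjunct of S0168 in record form, for every `t > 0`. -/
theorem modelBanach_midpoint (m : PotentialModel) (t : ℝ) (ht : 0 < t) :
    (modelBanach m).MidpointModulusGE (modelBanach m).norm t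
      (Real.sqrt (1 + t ^ 2 / 4) - 1) := by
  intro x hx η hη
  obtain ⟨F, hF, h⟩ :=
    midpoint_ge (Crest.Agent.Helper8.potClass_extraCondition m) ht x hx hη
  exact ⟨F, hF, fun y hy hy1 => h y hy hy1⟩

/-- The three conjuncts of S0168 assembled (same type as the frozen statement). -/
theorem s0168_statement (m : Crest.AnalysisR.TreePotential.PotentialModel) :
    (Crest.AnalysisR.TreePotential.modelBanach m).IsSeparableInfiniteDim ∧
      (∀ t : ℝ, 0 < t → t < 1 →
        (Crest.AnalysisR.TreePotential.modelBanach m).MidpointModulusGE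
          (Crest.AnalysisR.TreePotential.modelBanach m).norm t (Real.sqrt (1 + t ^ 2 / 4) - 1)) ∧
      ∀ N : (Crest.AnalysisR.TreePotential.modelBanach m).X → ℝ,
        (Crest.AnalysisR.TreePotential.modelBanach m).IsEquivNorm N →
          ¬ (Crest.AnalysisR.TreePotential.modelBanach m).IsAUC N :=
  ⟨Crest.Agent.Helper8.modelBanach_isSeparableInfiniteDim m,
    fun t ht _ => modelBanach_midpoint m t ht,
    Crest.Agent.Helper2.TreeGame.modelBanach_not_auc m⟩

end Crest.Agent.Helper28
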